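import Vale.Agent.P086.Spec
import Vale.Agent.P086.Lemmas

/-!
# The limit of the moved triples

Approximants are noncommutative polynomials, stable under small moves of bounded arguments in the
vector norm. The third member enters through its resolvent, which is bounded by one.
-/

noncomputable section

namespace Vale.Agent.P086

open scoped InnerProductSpace BigOperators
open Filter

universe u

namespace Limit

set_option linter.unusedSectionVars false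

variable {H : Type u} [NormedAddCommGroup H] [InnerProductSpace ℂ H] [CompleteSpace H]

/-! ### inverses -/

lemma vn_inv {s : Set (H →L[ℂ] H)} {a b : H →L[ℂ] H} (ha : a ∈ vn s) (h1 : a * b = 1)
    (h2 : b * a = 1) : b ∈ vn s := by
  intro m hm
  have h : m * a = a * m := ha m hm
  calc m * b = b * a * (m * b) := by rw [h2, one_mul]
    _ = b * (a * m) * b := by noncomm_ring
    _ = b * (m * a) * b := by rw [h]
    _ = b * m * (a * b) := by noncomm_ring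
    _ = b * m := by rw [h1, mul_one]

/-- The resolvent at the imaginary unit. -/
def res (a : H →L[ℂ] H) : H →L[ℂ] H := Ring.inverse (a - Complex.I • 1)

lemma isUnit_shift {a : H →L[ℂ] H} (ha : IsSelfAdjoint a) :
    IsUnit (a - Complex.I • 1) := by
  have h : Complex.I ∉ spectrum ℂ a := fun h => by
    have := congrArg Complex.im (ha.mem_spectrum_eq_re h)
    simp at this
  have h' := spectrum.notMem_iff.1 h
  rw [Algebra.algebraMap_eq_smul_one] at h'
  have := h'.neg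
  rwa [neg_sub] at this

lemma shift_mul_res {a : H →L[ℂ] H} (ha : IsSelfAdjoint a) :
    (a - Complex.I • 1) * res a = 1 ∧ res a * (a - Complex.I • 1) = 1 :=
  ⟨Ring.mul_inverse_cancel _ (isUnit_shift ha), Ring.inverse_mul_cancel _ (isUnit_shift ha)⟩

lemma norm_res_le {a : H →L[ℂ] H} (ha : IsSelfAdjoint a) : ‖res a‖ ≤ 1 := by
  refine ContinuousLinearMap.opNorm_le_bound _ zero_le_one fun y => ?_
  have h := congrArg (fun T : H →L[ℂ] H => T y) (shift_mul_res ha).1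
  simp only [mul_apply_eq_comp, sub_apply, smul_apply, one_apply_eq_self] at h
  generalize res a y = x at h ⊢
  rw [one_mul, ← h]
  have hre : RCLike.re ⟪a x, Complex.I • x⟫_ℂ = 0 := by
    have hsym := ha.isSymmetric
    rw [inner_smul_right]
    have him : (⟪a x, x⟫_ℂ).im = 0 := by
      have := hsym.im_inner_apply_self x
      simpa using this
    simp [him]
  have hsq : ‖a x - Complex.I • x‖ ^ 2 = ‖a x‖ ^ 2 + ‖x‖ ^ 2 := by
    rw [norm_sub_sq (𝕜 := ℂ), hre, norm_smul, Complex.norm_I]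
    ring
  refine le_of_pow_le_pow_left₀ two_ne_zero (norm_nonneg _) ?_
  rw [hsq]
  nlinarith [sq_nonneg ‖a x‖]

lemma res_mem {s : Set (H →L[ℂ] H)} {a : H →L[ℂ] H} (ha : IsSelfAdjoint a) (hm : a ∈ vn s) :
    res a ∈ vn s :=
  vn_inv (vn_sub hm (vn_smul _ vn_one)) (shift_mul_res ha).1 (shift_mul_res ha).2

lemma mem_of_res {s : Set (H →L[ℂ] H)} {a : H →L[ℂ] H} (ha : IsSelfAdjoint a)
    (hm : res a ∈ vn s) : a ∈ vn s := by
  have h := vn_add (vn_inv hm (shift_mul_res ha).2 (shift_mul_res ha).1)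
    (vn_smul Complex.I (vn_one (s := s)))
  rwa [sub_add_cancel] at h

lemma res_sub {a b : H →L[ℂ] H} (ha : IsSelfAdjoint a) (hb : IsSelfAdjoint b) :
    res a - res b = res a * (b - a) * res b := by
  calc res a - res b
      = res a * ((b - Complex.I • 1) * res b) - res a * (a - Complex.I • 1) * res b := by
        rw [(shift_mul_res hb).1, (shift_mul_res ha).2, mul_one, one_mul]
    _ = res a * ((b - Complex.I • 1) - (a - Complex.I • 1)) * res b := by noncomm_ring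
    _ = res a * (b - a) * res b := by rw [sub_sub_sub_cancel_right]

/-! ### the ambient algebra -/

/-- The consequences of the cyclic trace vector that are used. -/
structure Amb (Ω : H) (M : Set (H →L[ℂ] H)) : Prop where
  sep : ∀ a ∈ M, a Ω = 0 → a = 0
  ineq : ∀ a ∈ M, ∀ b ∈ M, ‖(a * b) Ω‖ ≤ ‖a‖ * ‖b Ω‖ ∧ ‖(a * b) Ω‖ ≤ ‖b‖ * ‖a Ω‖ ∧
    ‖(star a) Ω‖ = ‖a Ω‖
  closed : ∀ (t : Set (H →L[ℂ] H)), t ⊆ M → ∀ a ∈ M,
    (∀ ε : ℝ, 0 < ε → ∃ b ∈ vn t, ‖(a - b) Ω‖ ≤ ε) → a ∈ vn t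
  complete : ∀ (a : ℕ → H →L[ℂ] H) (R : ℝ), (∀ n, a n ∈ M) → (∀ n, ‖a n‖ ≤ R) →
    CauchySeq (fun n => a n Ω) →
    ∃ b ∈ M, ‖b‖ ≤ R ∧ Tendsto (fun n => a n Ω) atTop (nhds (b Ω))
  approx : ∀ (t : Set (H →L[ℂ] H)), t ⊆ M → ∀ a ∈ vn t, ∀ ε : ℝ, 0 < ε →
    ∃ b ∈ StarAlgebra.adjoin ℂ t, ‖(a - b) Ω‖ ≤ ε

lemma amb_of (hOps : OpsGoal.{u}) {Ω : H} {s : Set (H →L[ℂ] H)}
    (hd : Dense ((fun a : H →L[ℂ] H => a Ω) '' vn s))
    (ht : ∀ a ∈ vn s, ∀ b ∈ vn s, tr Ω (a * b) = tr Ω (b * a)) : Amb Ω (vn s) := by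
  obtain ⟨h1, h2, -, h4, h5, h6⟩ := hOps Ω s hd ht
  refine ⟨h1, h2, h4, fun a R ha hR hc => ?_, h6⟩
  exact h5 s (subset_vn s) a R ha hR hc

variable {Ω : H} {s : Set (H →L[ℂ] H)}

lemma norm_res_sub (hA : Amb Ω (vn s)) {a b : H →L[ℂ] H} (ha : IsSelfAdjoint a)
    (hb : IsSelfAdjoint b) (ham : a ∈ vn s) (hbm : b ∈ vn s) :
    ‖(res a - res b) Ω‖ ≤ ‖(b - a) Ω‖ ∧
      ‖(star (res a) - star (res b)) Ω‖ ≤ ‖(b - a) Ω‖ := by
  have hd := vn_sub hbm ham
  have hr := res_mem ha ham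
  have hr' := res_mem hb hbm
  have h1 : ‖(res a - res b) Ω‖ ≤ ‖(b - a) Ω‖ := by
    rw [res_sub ha hb]
    refine (hA.ineq _ (vn_mul hr hd) _ hr').2.1.trans ?_
    refine le_trans (mul_le_of_le_one_left (norm_nonneg _) (norm_res_le hb)) ?_
    exact (hA.ineq _ hr _ hd).1.trans (mul_le_of_le_one_left (norm_nonneg _) (norm_res_le ha))
  refine ⟨h1, ?_⟩
  rw [← star_sub, (hA.ineq _ (vn_sub hr hr') _ hd).2.2]
  exact h1

/-! ### polynomials -/

/-- Bounded arguments in the algebra. -/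
def Arg (s : Set (H →L[ℂ] H)) {ι : Type} (z : ι → H →L[ℂ] H) : Prop :=
  ∀ i, z i ∈ vn s ∧ ‖z i‖ ≤ 2

/-- The value of a polynomial. -/
def ev {ι : Type} (z : ι → H →L[ℂ] H) : FreeAlgebra ℂ ι →ₐ[ℂ] (H →L[ℂ] H) :=
  FreeAlgebra.lift ℂ z

lemma ev_ι {ι : Type} (z : ι → H →L[ℂ] H) (i : ι) : ev z (FreeAlgebra.ι ℂ i) = z i :=
  FreeAlgebra.lift_ι_apply _ _

lemma ev_word {ι : Type} (z : ι → H →L[ℂ] H) (l : List ι) :
    ev z (l.map (FreeAlgebra.ι ℂ)).prod = wprod z l := by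
  induction l with
  | nil => simp [wprod]
  | cons i l ih => simp only [List.map_cons, List.prod_cons, map_mul, ih, ev_ι, wprod_cons]

lemma stable (hA : Amb Ω (vn s)) {ι : Type} [Fintype ι] (p : FreeAlgebra ℂ ι) :
    ∃ B C : ℝ, 0 ≤ B ∧ 0 ≤ C ∧ ∀ z : ι → H →L[ℂ] H, Arg s z →
      ev z p ∈ vn s ∧ ‖ev z p‖ ≤ B ∧ ∀ z' : ι → H →L[ℂ] H, Arg s z' →
        ‖(ev z p - ev z' p) Ω‖ ≤ C * ∑ i, ‖(z i - z' i) Ω‖ := by
  induction p using FreeAlgebra.induction with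
  | grade0 r =>
    refine ⟨‖algebraMap ℂ (H →L[ℂ] H) r‖, 0, norm_nonneg _, le_rfl, fun z _ => ?_⟩
    rw [AlgHom.commutes]
    refine ⟨?_, le_rfl, fun z' _ => ?_⟩
    · rw [Algebra.algebraMap_eq_smul_one]; exact vn_smul r vn_one
    · rw [AlgHom.commutes]; simp
  | grade1 i =>
    refine ⟨2, 1, zero_le_two, zero_le_one, fun z hz => ?_⟩
    rw [ev_ι]
    refine ⟨(hz i).1, (hz i).2, fun z' _ => ?_⟩
    rw [ev_ι, one_mul]
    exact Finset.single_le_sum (f := fun j => ‖(z j - z' j) Ω‖) (fun j _ => norm_nonneg _)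
      (Finset.mem_univ i)
  | mul a b ha hb =>
    obtain ⟨B, C, hB, hC, h⟩ := ha
    obtain ⟨B', C', hB', hC', h'⟩ := hb
    refine ⟨B * B', B' * C + B * C', by positivity, by positivity, fun z hz => ?_⟩
    obtain ⟨a1, a2, a3⟩ := h z hz
    obtain ⟨b1, b2, b3⟩ := h' z hz
    rw [map_mul]
    refine ⟨vn_mul a1 b1, (norm_mul_le _ _).trans (mul_le_mul a2 b2 (norm_nonneg _) hB),
      fun z' hz' => ?_⟩
    obtain ⟨a1', a2', -⟩ := h z' hz'
    obtain ⟨b1', -, -⟩ := h' z' hz'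
    have e : ev z a * ev z b - ev z' (a * b)
        = (ev z a - ev z' a) * ev z b + ev z' a * (ev z b - ev z' b) := by
      rw [map_mul]; noncomm_ring
    have k1 := (hA.ineq _ (vn_sub a1 a1') _ b1).2.1
    have k2 := (hA.ineq _ a1' _ (vn_sub b1 b1')).1
    rw [e, add_apply]
    refine (norm_add_le _ _).trans ?_
    calc ‖((ev z a - ev z' a) * ev z b) Ω‖ + ‖(ev z' a * (ev z b - ev z' b)) Ω‖
        ≤ B' * (C * ∑ i, ‖(z i - z' i) Ω‖) + B * (C' * ∑ i, ‖(z i - z' i) Ω‖) :=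
          add_le_add (k1.trans (mul_le_mul b2 (a3 z' hz') (norm_nonneg _) hB'))
            (k2.trans (mul_le_mul a2' (b3 z' hz') (norm_nonneg _) hB))
      _ = (B' * C + B * C') * ∑ i, ‖(z i - z' i) Ω‖ := by ring
  | add a b ha hb =>
    obtain ⟨B, C, hB, hC, h⟩ := ha
    obtain ⟨B', C', hB', hC', h'⟩ := hb
    refine ⟨B + B', C + C', by positivity, by positivity, fun z hz => ?_⟩
    obtain ⟨a1, a2, a3⟩ := h z hz
    obtain ⟨b1, b2, b3⟩ := h' z hz
    rw [map_add]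
    refine ⟨vn_add a1 b1, (norm_add_le _ _).trans (add_le_add a2 b2), fun z' hz' => ?_⟩
    rw [map_add, add_sub_add_comm, add_apply]
    refine (norm_add_le _ _).trans ?_
    rw [add_mul]
    exact add_le_add (a3 z' hz') (b3 z' hz')

lemma mem_adjoin_exists {ι : Type} {t : Set (H →L[ℂ] H)} {z : ι → H →L[ℂ] H}
    (ht : ∀ x ∈ t, x ∈ Set.range z ∧ star x ∈ Set.range z) {b : H →L[ℂ] H}
    (hb : b ∈ StarAlgebra.adjoin ℂ t) : ∃ p, ev z p = b := by
  have h1 : t ∪ star t ⊆ Set.range z := by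
    rintro x (hx | hx)
    · exact (ht x hx).1
    · simpa using (ht (star x) hx).2
  have h2 : b ∈ Algebra.adjoin ℂ (t ∪ star t) := by
    rw [← StarAlgebra.adjoin_toSubalgebra]; exact hb
  have h3 : Algebra.adjoin ℂ (t ∪ star t) ≤ (ev z).range := by
    refine Algebra.adjoin_le fun x hx => ?_
    obtain ⟨i, rfl⟩ := h1 hx
    exact ⟨FreeAlgebra.ι ℂ i, ev_ι z i⟩
  exact h3 h2

/-! ### the induction -/

/-- A triple of the same algebra. -/
def Good (Ω : H) (s : Set (H →L[ℂ] H)) (Z : Fin 3 → H →L[ℂ] H) : Prop :=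
  IsSys Ω Z ∧ vn (Set.range Z) = vn s

/-- The first two members. -/
def pr (Z : Fin 3 → H →L[ℂ] H) : Fin 2 → H →L[ℂ] H := ![Z 0, Z 1]

/-- The arguments of the first approximants. -/
def quad (x y a : H →L[ℂ] H) : Fin 4 → H →L[ℂ] H := ![x, y, res a, star (res a)]

lemma good_mem {Z : Fin 3 → H →L[ℂ] H} (hZ : Good Ω s Z) (i : Fin 3) : Z i ∈ vn s :=
  hZ.2 ▸ subset_vn _ (Set.mem_range_self i)

lemma arg_pr {Z : Fin 3 → H →L[ℂ] H} (hZ : Good Ω s Z) : Arg s (pr Z) := by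
  intro i
  fin_cases i
  · exact ⟨good_mem hZ 0, hZ.1.bound 0⟩
  · exact ⟨good_mem hZ 1, hZ.1.bound 1⟩

lemma arg_quad {Z : Fin 3 → H →L[ℂ] H} (hZ : Good Ω s Z) {c : H →L[ℂ] H}
    (hc : c ∈ vn s) (hsa : IsSelfAdjoint c) : Arg s (quad (Z 0) (Z 1) c) := by
  have h2 : ‖res c‖ ≤ 2 := (norm_res_le hsa).trans one_le_two
  intro i
  fin_cases i
  · exact ⟨good_mem hZ 0, hZ.1.bound 0⟩
  · exact ⟨good_mem hZ 1, hZ.1.bound 1⟩
  · exact ⟨res_mem hsa hc, h2⟩
  · exact ⟨vn_star (res_mem hsa hc), le_of_eq_of_le (norm_star _) h2⟩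

/-- One move: the originals are close to polynomials in the pair, with a budget for later moves. -/
lemma advance (hA : Amb Ω (vn s)) (hStep : StepGoal.{u}) (g : Fin 3 → H →L[ℂ] H)
    (hg : ∀ k, g k ∈ vn s) {Z : Fin 3 → H →L[ℂ] H} (hZ : Good Ω s Z) {b η : ℝ} (hb : 0 < b)
    (hη : 0 < η) :
    ∃ (Z' : Fin 3 → H →L[ℂ] H) (b' : ℝ), Good Ω s Z' ∧ 0 < b' ∧ b' ≤ b / 2 ∧
      (∀ i, ‖(pr Z' i - pr Z i) Ω‖ ≤ b / 2) ∧
      ∀ k, ∃ p : FreeAlgebra ℂ (Fin 2), ∀ z : Fin 2 → H →L[ℂ] H, Arg s z →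
        (∀ i, ‖(z i - pr Z' i) Ω‖ ≤ b') → ‖(g k - ev z p) Ω‖ ≤ η := by
  set z4 := quad (Z 0) (Z 1) (Z 2) with hz4
  have hz4a : Arg s z4 := arg_quad hZ (good_mem hZ 2) (hZ.1.sa 2)
  set t : Set (H →L[ℂ] H) := {Z 0, Z 1, res (Z 2)} with ht_def
  have htM : t ⊆ vn s := by
    intro x hx
    simp only [ht_def, Set.mem_insert_iff, Set.mem_singleton_iff] at hx
    rcases hx with rfl | rfl | rfl
    exacts [good_mem hZ 0, good_mem hZ 1, res_mem (hZ.1.sa 2) (good_mem hZ 2)]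
  have htz : ∀ x ∈ t, x ∈ Set.range z4 ∧ star x ∈ Set.range z4 := by
    intro x hx
    simp only [ht_def, Set.mem_insert_iff, Set.mem_singleton_iff] at hx
    rcases hx with rfl | rfl | rfl
    exacts [⟨⟨0, rfl⟩, ⟨0, (hZ.1.sa 0).star_eq.symm⟩⟩,
      ⟨⟨1, rfl⟩, ⟨1, (hZ.1.sa 1).star_eq.symm⟩⟩, ⟨⟨2, rfl⟩, ⟨3, rfl⟩⟩]
  have hrt : Set.range Z ⊆ vn t := by
    rintro x ⟨i, rfl⟩
    fin_cases i
    · exact subset_vn t (by simp [ht_def])
    · exact subset_vn t (by simp [ht_def])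
    · exact mem_of_res (hZ.1.sa 2) (subset_vn t (by simp [ht_def]))
  have hQ : ∀ k, ∃ (p : FreeAlgebra ℂ (Fin 4)) (C : ℝ), 0 ≤ C ∧
      ‖(g k - ev z4 p) Ω‖ ≤ η / 4 ∧ (∀ z : Fin 4 → H →L[ℂ] H, Arg s z →
        ‖(ev z4 p - ev z p) Ω‖ ≤ C * ∑ i, ‖(z4 i - z i) Ω‖) := by
    intro k
    have hk : g k ∈ vn t := vn_le hrt (hZ.2.symm ▸ hg k)
    obtain ⟨q, hq, hq'⟩ := hA.approx t htM (g k) hk (η / 4) (by linarith)
    obtain ⟨p, rfl⟩ := mem_adjoin_exists htz hq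
    obtain ⟨_, C, _, hC, h⟩ := stable hA p
    exact ⟨p, C, hC, hq', (h z4 hz4a).2.2⟩
  choose Q C hC hQ1 hQ2 using hQ
  have hCk : ∀ k, C k ≤ ∑ k, C k := fun k =>
    Finset.single_le_sum (fun j _ => hC j) (Finset.mem_univ k)
  set T := ∑ k, C k with hT
  have hT0 : 0 ≤ T := Finset.sum_nonneg fun j _ => hC j
  set δ := min (b / 2) (η / (16 * (T + 1))) with hδd
  have hδ : 0 < δ := lt_min (by linarith) (by positivity)
  obtain ⟨Z', hZ', hv', h0, h1, c, hc, hcsa, hc2⟩ := hStep Ω Z hZ.1 δ δ hδ hδ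
  have hG : Good Ω s Z' := ⟨hZ', hv'.trans hZ.2⟩
  have hpair : ({Z' 0, Z' 1} : Set (H →L[ℂ] H)) ⊆ vn s := by
    intro x hx
    simp only [Set.mem_insert_iff, Set.mem_singleton_iff] at hx
    rcases hx with rfl | rfl
    exacts [good_mem hG 0, good_mem hG 1]
  have hcM : c ∈ vn s := vn_le hpair hc
  set z' := quad (Z' 0) (Z' 1) c with hz'
  have hz'a : Arg s z' := arg_quad hG hcM hcsa
  have hsum : ∑ i, ‖(z4 i - z' i) Ω‖ ≤ 4 * δ := by
    have e0 : ‖(Z 0 - Z' 0) Ω‖ ≤ δ := by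
      rw [← norm_neg, ← neg_apply, neg_sub]; exact h0
    have e1 : ‖(Z 1 - Z' 1) Ω‖ ≤ δ := by
      rw [← norm_neg, ← neg_apply, neg_sub]; exact h1
    obtain ⟨e2, e3⟩ := norm_res_sub hA (hZ.1.sa 2) hcsa (good_mem hZ 2) hcM
    rw [Fin.sum_univ_four]
    have e2' := e2.trans hc2
    have e3' := e3.trans hc2
    simp only [hz4, hz', quad, Matrix.cons_val_zero, Matrix.cons_val_one, Matrix.cons_val]
    linarith
  have hmid : ∀ k, ‖(g k - ev z' (Q k)) Ω‖ ≤ η / 2 := by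
    intro k
    have h4 : C k * ∑ i, ‖(z4 i - z' i) Ω‖ ≤ η / 4 := by
      refine le_trans (mul_le_mul (hCk k) hsum (Finset.sum_nonneg fun i _ => norm_nonneg _) hT0) ?_
      have h16 : δ ≤ η / (16 * (T + 1)) := min_le_right _ _
      rw [le_div_iff₀ (by positivity)] at h16
      nlinarith
    have e : g k - ev z' (Q k) = (g k - ev z4 (Q k)) + (ev z4 (Q k) - ev z' (Q k)) := by abel
    rw [e, add_apply]
    refine (norm_add_le _ _).trans ?_
    linarith [hQ1 k, hQ2 k z' hz'a]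
  have hP : ∀ k, ∃ (p : FreeAlgebra ℂ (Fin 2)) (D : ℝ), 0 ≤ D ∧
      ‖(g k - ev (pr Z') p) Ω‖ ≤ 3 * η / 4 ∧ (∀ z : Fin 2 → H →L[ℂ] H, Arg s z →
        ‖(ev (pr Z') p - ev z p) Ω‖ ≤ D * ∑ i, ‖(pr Z' i - z i) Ω‖) := by
    intro k
    have hmem : ev z' (Q k) ∈ vn {Z' 0, Z' 1} := by
      refine mem_vnSub.1 ?_
      have hle : (ev z').range ≤ (vnSub {Z' 0, Z' 1}).toSubalgebra := by
        rw [ev, ← Algebra.adjoin_range_eq_range_freeAlgebra_lift]
        refine Algebra.adjoin_le ?_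
        rintro x ⟨i, rfl⟩
        refine mem_vnSub.2 ?_
        fin_cases i
        · exact subset_vn _ (by simp [hz', quad])
        · exact subset_vn _ (by simp [hz', quad])
        · exact res_mem hcsa hc
        · exact vn_star (res_mem hcsa hc)
      exact hle ⟨Q k, rfl⟩
    obtain ⟨q, hq, hq'⟩ := hA.approx _ hpair _ hmem (η / 4) (by linarith)
    have htz' : ∀ x ∈ ({Z' 0, Z' 1} : Set (H →L[ℂ] H)),
        x ∈ Set.range (pr Z') ∧ star x ∈ Set.range (pr Z') := by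
      intro x hx
      simp only [Set.mem_insert_iff, Set.mem_singleton_iff] at hx
      rcases hx with rfl | rfl
      exacts [⟨⟨0, rfl⟩, ⟨0, (hZ'.sa 0).star_eq.symm⟩⟩, ⟨⟨1, rfl⟩, ⟨1, (hZ'.sa 1).star_eq.symm⟩⟩]
    obtain ⟨p, rfl⟩ := mem_adjoin_exists htz' hq
    obtain ⟨_, D, _, hD, h⟩ := stable hA p
    refine ⟨p, D, hD, ?_, (h _ (arg_pr hG)).2.2⟩
    have e : g k - ev (pr Z') p = (g k - ev z' (Q k)) + (ev z' (Q k) - ev (pr Z') p) := by abel
    rw [e, add_apply]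
    refine (norm_add_le _ _).trans ?_
    linarith [hmid k]
  choose P D hD hP1 hP2 using hP
  set U := ∑ k, D k with hU
  have hU0 : 0 ≤ U := Finset.sum_nonneg fun j _ => hD j
  refine ⟨Z', min (b / 2) (η / (8 * (U + 1))), hG, lt_min (by linarith) (by positivity),
    min_le_left _ _, ?_, fun k => ⟨P k, fun z hz hzd => ?_⟩⟩
  · intro i
    fin_cases i
    · exact h0.trans (min_le_left _ _)
    · exact h1.trans (min_le_left _ _)
  · have hs : ∑ i, ‖(pr Z' i - z i) Ω‖ ≤ 2 * (η / (8 * (U + 1))) := by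
      have hi : ∀ i, ‖(pr Z' i - z i) Ω‖ ≤ η / (8 * (U + 1)) := fun i => by
        rw [← norm_neg, ← neg_apply, neg_sub]
        exact (hzd i).trans (min_le_right _ _)
      rw [Fin.sum_univ_two]; linarith [hi 0, hi 1]
    have h4 : D k * ∑ i, ‖(pr Z' i - z i) Ω‖ ≤ η / 4 := by
      refine le_trans (mul_le_mul (Finset.single_le_sum (fun j _ => hD j) (Finset.mem_univ k)) hs
        (Finset.sum_nonneg fun i _ => norm_nonneg _) hU0) ?_
      rw [mul_comm, mul_div_assoc', div_mul_eq_mul_div, div_le_iff₀ (by positivity)]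
      nlinarith
    have e : g k - ev z (P k) = (g k - ev (pr Z') (P k)) + (ev (pr Z') (P k) - ev z (P k)) := by
      abel
    rw [e, add_apply]
    refine (norm_add_le _ _).trans ?_
    linarith [hP1 k, hP2 k z hz]

/-- The moments of a limit of good pairs. -/
lemma tendsto_tr (hA : Amb Ω (vn s)) (hΩ : ‖Ω‖ = 1) {Y : Fin 2 → H →L[ℂ] H} (hY : Arg s Y)
    {W : ℕ → Fin 2 → H →L[ℂ] H} (hW : ∀ n, Arg s (W n))
    (hlim : ∀ i, Tendsto (fun n => ‖(W n i - Y i) Ω‖) atTop (nhds 0)) (l : List (Fin 2)) :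
    Tendsto (fun n => tr Ω (wprod (W n) l)) atTop (nhds (tr Ω (wprod Y l))) := by
  obtain ⟨_, C, _, _, h⟩ := stable hA (l.map (FreeAlgebra.ι ℂ)).prod
  rw [tendsto_iff_norm_sub_tendsto_zero]
  refine squeeze_zero (g := fun n => C * ∑ i, ‖(W n i - Y i) Ω‖) (fun n => norm_nonneg _)
    (fun n => ?_) ?_
  · have := (h (W n) (hW n)).2.2 Y hY
    rw [ev_word, ev_word] at this
    refine le_trans ?_ this
    refine le_trans (le_of_eq ?_) (norm_tr_le Ω hΩ _)
    simp [tr]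
  · simpa using (tendsto_finsetSum Finset.univ fun i _ => hlim i).const_mul C

end Limit

open Limit in
theorem limitGoal (hOps : OpsGoal.{u}) (hStep : StepGoal.{u}) : LimitGoal.{u} := by
  intro H _ _ _ Ω X hX
  set s := Set.range X
  have hA : Amb Ω (vn s) := amb_of hOps hX.cyclic hX.tracial
  let η : ℕ → ℝ := fun n => (1 / 2) ^ n
  have hη : ∀ n, 0 < η n := fun n => by positivity
  let St := {q : (Fin 3 → H →L[ℂ] H) × ℝ // Good Ω s q.1 ∧ 0 < q.2}
  have key : ∀ (n : ℕ) (q : St), ∃ q' : St, q'.1.2 ≤ q.1.2 / 2 ∧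
      (∀ i, ‖(pr q'.1.1 i - pr q.1.1 i) Ω‖ ≤ q.1.2 / 2) ∧
      ∀ k, ∃ p : FreeAlgebra ℂ (Fin 2), ∀ z : Fin 2 → H →L[ℂ] H, Arg s z →
        (∀ i, ‖(z i - pr q'.1.1 i) Ω‖ ≤ q'.1.2) → ‖(X k - ev z p) Ω‖ ≤ η n := by
    intro n q
    obtain ⟨Z', b', h1, h2, h3, h4, h5⟩ := advance hA hStep X
      (fun k => subset_vn _ (Set.mem_range_self k)) q.2.1 q.2.2 (hη n)
    exact ⟨⟨(Z', b'), h1, h2⟩, h3, h4, h5⟩
  choose next hn1 hn2 hn3 using key
  let q : ℕ → St := fun n => Nat.rec ⟨(X, 1), ⟨hX, rfl⟩, one_pos⟩ next n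
  set W : ℕ → Fin 2 → H →L[ℂ] H := fun n => pr (q n).1.1
  set b : ℕ → ℝ := fun n => (q n).1.2
  have hb0 : ∀ n, 0 < b n := fun n => (q n).2.2
  have hbs : ∀ n, b (n + 1) ≤ b n / 2 := fun n => hn1 n (q n)
  have hWs : ∀ n i, ‖(W (n + 1) i - W n i) Ω‖ ≤ b n / 2 := fun n => hn2 n (q n)
  have hWa : ∀ n, Arg s (W n) := fun n => arg_pr (q n).2.1
  have tele : ∀ i m k, ‖W (m + k) i Ω - W m i Ω‖ + b (m + k) ≤ b m := by
    intro i m k
    induction k with
    | zero => simp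
    | succ k ih =>
      have h1 := hWs (m + k) i
      rw [sub_apply] at h1
      have h2 := hbs (m + k)
      have h3 := norm_sub_le_norm_sub_add_norm_sub (W (m + k + 1) i Ω) (W (m + k) i Ω) (W m i Ω)
      rw [← add_assoc]
      linarith
  have hbb : ∀ n, b n ≤ η n := by
    intro n
    induction n with
    | zero => simp [b, q, η]
    | succ n ih =>
      have := hbs n
      simp only [η, pow_succ] at ih ⊢
      linarith
  have hη0 : Tendsto η atTop (nhds 0) :=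
    tendsto_pow_atTop_nhds_zero_of_lt_one (by norm_num) (by norm_num)
  have hdist : ∀ i m n, m ≤ n → ‖W n i Ω - W m i Ω‖ ≤ b m := by
    intro i m n h
    obtain ⟨k, rfl⟩ := Nat.exists_eq_add_of_le h
    linarith [tele i m k, hb0 (m + k)]
  have hcau : ∀ i, CauchySeq fun n => W n i Ω := by
    intro i
    refine cauchySeq_of_le_tendsto_0' η (fun m n hmn => ?_) hη0
    rw [dist_eq_norm, norm_sub_rev]
    exact (hdist i m n hmn).trans (hbb m)
  have hex : ∀ i, ∃ y ∈ vn s, ‖y‖ ≤ 2 ∧ Tendsto (fun n => W n i Ω) atTop (nhds (y Ω)) :=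
    fun i => hA.complete (fun n => W n i) 2 (fun n => (hWa n i).1) (fun n => (hWa n i).2) (hcau i)
  choose Y hYm hYb hYt using hex
  have hYa : Arg s Y := fun i => ⟨hYm i, hYb i⟩
  have hYd : ∀ i m, ‖(Y i - W m i) Ω‖ ≤ b m := by
    intro i m
    rw [sub_apply]
    refine le_of_tendsto ((hYt i).sub_const (W m i Ω)).norm ?_
    exact eventually_atTop.2 ⟨m, fun n hn => hdist i m n hn⟩
  have hlim : ∀ i, Tendsto (fun n => ‖(W n i - Y i) Ω‖) atTop (nhds 0) := by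
    intro i
    refine squeeze_zero (fun n => norm_nonneg _) (fun n => ?_) hη0
    rw [← norm_neg, ← neg_apply, neg_sub]
    exact (hYd i n).trans (hbb n)
  have hWsa : ∀ n i, IsSelfAdjoint (W n i) := by
    intro n i
    fin_cases i
    · exact (q n).2.1.1.sa 0
    · exact (q n).2.1.1.sa 1
  have hYsa : ∀ i, IsSelfAdjoint (Y i) := by
    intro i
    have hd : (star (Y i) - Y i) Ω = 0 := by
      refine norm_le_zero_iff.1 (ge_of_tendsto (f := fun n => 2 * ‖(W n i - Y i) Ω‖)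
        (by simpa using (hlim i).const_mul 2) (Eventually.of_forall fun n => ?_))
      have e : star (Y i) - Y i = (W n i - Y i) - star (W n i - Y i) := by
        rw [star_sub, (hWsa n i).star_eq]; abel
      rw [e, sub_apply]
      refine (norm_sub_le _ _).trans (le_of_eq ?_)
      rw [(hA.ineq _ (vn_sub (hWa n i).1 (hYm i)) _ (hYm i)).2.2]
      ring
    exact sub_eq_zero.1 (hA.sep _ (vn_sub (vn_star (hYm i)) (hYm i)) hd)
  have hYs : Set.range Y ⊆ vn s := by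
    rintro x ⟨i, rfl⟩; exact hYm i
  have hgen : vn (Set.range Y) = vn s := by
    refine Set.Subset.antisymm (vn_le hYs) (vn_le ?_)
    rintro x ⟨k, rfl⟩
    refine hA.closed _ hYs _ (subset_vn _ (Set.mem_range_self k)) fun ε hε => ?_
    obtain ⟨n, hn⟩ := (hη0.eventually (eventually_le_nhds hε)).exists
    obtain ⟨p, hp⟩ := hn3 n (q n) k
    refine ⟨ev Y p, mem_vnSub.1 ?_, (hp Y hYa fun i => hYd i (n + 1)).trans hn⟩
    have hle : (ev Y).range ≤ (vnSub (Set.range Y)).toSubalgebra := by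
      rw [ev, ← Algebra.adjoin_range_eq_range_freeAlgebra_lift]
      exact Algebra.adjoin_le fun x hx => mem_vnSub.2 (subset_vn _ hx)
    exact hle ⟨p, rfl⟩
  have hsplit : ∀ n (i : Fin 2) (l : List (Fin 2)), tr Ω (W n i * wprod (W n) l)
      = ∑ k : Fin l.length, if l.get k = i then
          tr Ω (wprod (W n) (l.take k.val)) * tr Ω (wprod (W n) (l.drop (k.val + 1))) else 0 := by
    intro n i l
    have hw : W n = fun j => (q n).1.1 (Fin.castSucc j) := by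
      funext j
      fin_cases j <;> rfl
    have hm : ∀ m : List (Fin 2), wprod (W n) m = wprod (q n).1.1 (m.map Fin.castSucc) := by
      intro m; rw [hw]; simp [wprod, Function.comp_def]
    have h := (q n).2.1.1.split (Fin.castSucc i) (l.map Fin.castSucc)
    rw [hm, congrFun hw i, h]
    refine Fintype.sum_equiv (finCongr (List.length_map _)) _ _ fun k => ?_
    simp [hm, List.map_take, List.map_drop, Fin.castSucc_inj]
  refine ⟨Y, ⟨⟨hX.unit, hYsa, hYb, fun i l => ?_⟩, ?_, ?_⟩, hgen⟩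
  · have h1 := tendsto_tr hA hX.unit hYa hWa hlim (i :: l)
    simp only [wprod_cons] at h1
    refine tendsto_nhds_unique (h1.congr fun n => hsplit n i l) ?_
    refine tendsto_finsetSum _ fun k _ => ?_
    split_ifs
    · exact (tendsto_tr hA hX.unit hYa hWa hlim _).mul (tendsto_tr hA hX.unit hYa hWa hlim _)
    · exact tendsto_const_nhds
  · rw [hgen]; exact hX.tracial
  · rw [hgen]; exact hX.cyclic

end Vale.Agent.P086
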