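import Vale.Agent.P086.Spec
import Vale.Agent.P086.Lemmas

/-!
# The group algebras from the limit theorem
-/

noncomputable section

namespace Vale.Agent.P086

open scoped InnerProductSpace ENNReal

namespace FinalMain

variable {G : Type} [Group G]

lemma lam_apply (g : G) (f : L2G G) (x : G) : lam g f x = f (g⁻¹ * x) := rfl

lemma lam_mul (g h : G) : lam (g * h) = lam g * lam h := by
  ext f : 1
  apply lp.ext; funext x
  simp [lam_apply, mul_apply_eq_comp, mul_assoc]

lemma lam_one : lam (1 : G) = 1 := by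
  ext f : 1
  apply lp.ext; funext x
  simp [lam_apply]

lemma lam_single [DecidableEq G] (g h : G) :
    lam g (lp.single 2 h (1 : ℂ)) = lp.single 2 (g * h) 1 := by
  apply lp.ext; funext x
  simp [lam_apply, Pi.single_apply, inv_mul_eq_iff_eq_mul]

lemma star_lam [DecidableEq G] (g : G) : star (lam g) = lam g⁻¹ := by
  rw [ContinuousLinearMap.star_eq_adjoint]
  refine ((ContinuousLinearMap.eq_adjoint_iff _ _).2 fun x y => ?_).symm
  rw [lp.inner_eq_tsum, lp.inner_eq_tsum, ← (Equiv.mulLeft g).tsum_eq (fun i => ⟪x i, lam g y i⟫_ℂ)]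
  exact tsum_congr fun i => by simp [lam_apply]

lemma lam_unitary [DecidableEq G] (g : G) : lam g ∈ unitary (L2G G →L[ℂ] L2G G) := by
  rw [Unitary.mem_iff, star_lam, ← lam_mul, ← lam_mul, inv_mul_cancel, mul_inv_cancel, lam_one]
  exact ⟨rfl, rfl⟩

lemma fgWord_lam {ι : Type} [DecidableEq ι] (g : FreeGroup ι) :
    fgWord (fun i => lam (FreeGroup.of i)) g = lam g := by
  have h : ∀ l : List (ι × Bool),
      (l.map fun p => if p.2 then lam (FreeGroup.of p.1) else star (lam (FreeGroup.of p.1))).prod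
        = lam (FreeGroup.mk l) := by
    intro l
    induction l with
    | nil => rw [List.map_nil, List.prod_nil, ← FreeGroup.one_eq_mk, lam_one]
    | cons p l ih =>
      obtain ⟨i, b⟩ := p
      have e : FreeGroup.mk ((i, b) :: l) = FreeGroup.mk [(i, b)] * FreeGroup.mk l := by
        simp [FreeGroup.mul_mk]
      rw [List.map_cons, List.prod_cons, ih, e, lam_mul]
      cases b
      · simp [star_lam, FreeGroup.of, FreeGroup.inv_mk, FreeGroup.invRev]
      · simp [FreeGroup.of]
  rw [fgWord, h, FreeGroup.mk_toWord]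

lemma groupVN_eq {ι : Type} [DecidableEq ι] :
    groupVN (FreeGroup ι) = vn (Set.range fun i : ι => lam (FreeGroup.of i)) := by
  refine Set.Subset.antisymm (vn_le ?_) (vn_mono ?_)
  · rintro _ ⟨g, rfl⟩
    rw [← fgWord_lam, fgWord]
    refine mem_vnSub.1 (list_prod_mem fun x hx => ?_)
    obtain ⟨⟨i, b⟩, -, rfl⟩ := List.mem_map.1 hx
    have hi := subset_vn (Set.range fun i : ι => lam (FreeGroup.of i)) ⟨i, rfl⟩
    cases b
    · exact mem_vnSub.2 (vn_star hi)
    · exact mem_vnSub.2 hi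
  · rintro _ ⟨i, rfl⟩
    exact ⟨_, rfl⟩

lemma isBasis_lam {ι : Type} [DecidableEq ι] :
    IsBasis (lp.single 2 (1 : FreeGroup ι) (1 : ℂ)) fun i => lam (FreeGroup.of i) where
  unit := by simp
  mem i := lam_unitary _
  free g := by
    rw [fgWord_lam, tr, lam_single, mul_one, lp.inner_single_left, RCLike.inner_apply]
    simp [Pi.single_apply, eq_comm]
  cyclic := by
    rw [← groupVN_eq]
    intro f
    have hs := lp.hasSum_single (p := 2) (by norm_num) f
    refine mem_closure_of_tendsto hs (Filter.Eventually.of_forall fun F => ?_)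
    refine ⟨∑ g ∈ F, (f g) • lam g,
      vn_sum F fun g _ => vn_smul _ (subset_vn _ ⟨g, rfl⟩), ?_⟩
    simp only [sum_apply, smul_apply, lam_single, mul_one, ← lp.single_smul,
      smul_eq_mul, mul_one]

lemma vn_scU {H : Type} [NormedAddCommGroup H] [InnerProductSpace ℂ H] [CompleteSpace H]
    {ι : Type} (X : ι → H →L[ℂ] H) (h : ∀ i, vn {scU (X i)} = vn {X i}) :
    vn (Set.range fun i => scU (X i)) = vn (Set.range X) := by
  refine Set.Subset.antisymm (vn_le ?_) (vn_le ?_) <;> rintro _ ⟨i, rfl⟩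
  · refine vn_mono (s := {X i}) (Set.singleton_subset_iff.2 (Set.mem_range_self i)) ?_
    rw [← h i]
    exact subset_vn _ rfl
  · refine vn_mono (s := {scU (X i)})
      (Set.singleton_subset_iff.2 (Set.mem_range_self (f := fun i => scU (X i)) i)) ?_
    rw [h i]
    exact subset_vn _ rfl

end FinalMain

open FinalMain in
/-- The isomorphism from the limit theorem. -/
theorem finalOf (hE : ExistGoal) (hC : ConvGoal.{0}) (hG : GnsGoal.{0, 0}) (hL : LimitGoal.{0}) :
    FinalGoal := by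
  obtain ⟨H, _, _, _, Ω, X, hX⟩ := hE (Fin 3)
  obtain ⟨Y, hY, hYX⟩ := hL Ω X hX
  obtain ⟨huX, hvX⟩ := hC Ω X hX
  obtain ⟨huY, hvY⟩ := hC Ω Y hY
  obtain ⟨U₂, -, -, h₂⟩ := hG _ Ω (fun i : Fin 2 => lam (FreeGroup.of i)) (fun i => scU (Y i))
    (Or.inr ⟨isBasis_lam, huY⟩)
  obtain ⟨U₃, -, -, h₃⟩ := hG Ω _ (fun i => scU (X i)) (fun i : Fin 3 => lam (FreeGroup.of i))
    (Or.inr ⟨huX, isBasis_lam⟩)
  refine ⟨U₂.trans U₃, ?_⟩
  have e : conjU (U₂.trans U₃) = conjU U₃ ∘ conjU U₂ := by
    funext a; ext x; simp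
  rw [e, Set.image_comp, groupVN_eq, groupVN_eq, h₂, vn_scU Y hvY, hYX, ← vn_scU X hvX, h₃]

end Vale.Agent.P086
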