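import Vale.Agent.P086.Final.Main

/-!
# The isomorphism in Mathlib terms
-/

noncomputable section

namespace Vale.Agent.P086

open scoped InnerProductSpace ENNReal

namespace FinalMain

lemma groupVN_centralizer (G : Type) [Group G] :
    groupVN G = Set.centralizer (Set.centralizer
      {T : lp (fun _ : G => ℂ) 2 →L[ℂ] lp (fun _ : G => ℂ) 2 |
        ∃ g : G, ∀ (f : lp (fun _ : G => ℂ) 2) (x : G), T f x = f (g⁻¹ * x)}) := by
  classical
  have e : {T : lp (fun _ : G => ℂ) 2 →L[ℂ] lp (fun _ : G => ℂ) 2 |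
      ∃ g : G, ∀ (f : lp (fun _ : G => ℂ) 2) (x : G), T f x = f (g⁻¹ * x)} =
      Set.range (lam (G := G)) ∪ star '' Set.range (lam (G := G)) := by
    ext T
    constructor
    · rintro ⟨g, hg⟩
      exact Or.inl ⟨g, ContinuousLinearMap.ext fun f =>
        lp.ext (funext fun x => (hg f x).symm)⟩
    · rintro (⟨g, rfl⟩ | ⟨_, ⟨g, rfl⟩, rfl⟩)
      · exact ⟨g, fun f x => rfl⟩
      · exact ⟨g⁻¹, fun f x => by rw [star_lam]; rfl⟩
  rw [groupVN, vn, e]

end FinalMain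

/-- The Mathlib form of `FinalGoal`. -/
theorem rankIso_of_final (h : FinalGoal) :
    ∃ U : lp (fun _ : FreeGroup (Fin 2) => ℂ) 2 ≃ₗᵢ[ℂ] lp (fun _ : FreeGroup (Fin 3) => ℂ) 2,
      (fun a : lp (fun _ : FreeGroup (Fin 2) => ℂ) 2 →L[ℂ] lp (fun _ : FreeGroup (Fin 2) => ℂ) 2 =>
        (U.toContinuousLinearEquiv : lp (fun _ : FreeGroup (Fin 2) => ℂ) 2 →L[ℂ]
            lp (fun _ : FreeGroup (Fin 3) => ℂ) 2).comp
          (a.comp (U.symm.toContinuousLinearEquiv : lp (fun _ : FreeGroup (Fin 3) => ℂ) 2 →L[ℂ]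
            lp (fun _ : FreeGroup (Fin 2) => ℂ) 2))) ''
        Set.centralizer (Set.centralizer
          {T : lp (fun _ : FreeGroup (Fin 2) => ℂ) 2 →L[ℂ] lp (fun _ : FreeGroup (Fin 2) => ℂ) 2 |
            ∃ g : FreeGroup (Fin 2), ∀ (f : lp (fun _ : FreeGroup (Fin 2) => ℂ) 2)
              (x : FreeGroup (Fin 2)), T f x = f (g⁻¹ * x)}) =
        Set.centralizer (Set.centralizer
          {T : lp (fun _ : FreeGroup (Fin 3) => ℂ) 2 →L[ℂ] lp (fun _ : FreeGroup (Fin 3) => ℂ) 2 |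
            ∃ g : FreeGroup (Fin 3), ∀ (f : lp (fun _ : FreeGroup (Fin 3) => ℂ) 2)
              (x : FreeGroup (Fin 3)), T f x = f (g⁻¹ * x)}) := by
  obtain ⟨U, hU⟩ := h
  rw [FinalMain.groupVN_centralizer, FinalMain.groupVN_centralizer] at hU
  exact ⟨U, hU⟩

end Vale.Agent.P086
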