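import Vale.Agent.P086.Final.StepModel

/-!
# The step: a triple can be moved a little so that the third member is almost in the algebra of
the first two
-/

noncomputable section

namespace Vale.Agent.P086

open scoped InnerProductSpace BigOperators
open StepTools

universe u

namespace StepTools

variable {H : Type} [NormedAddCommGroup H] [InnerProductSpace ℂ H] [CompleteSpace H]
variable {ι : Type}

/-- The unitaries and their variables generate the same algebra. -/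
lemma vn_range_scU (a : ι → H →L[ℂ] H) (h : ∀ i, vn {scU (a i)} = vn {a i}) :
    vn (Set.range fun i => scU (a i)) = vn (Set.range a) := by
  refine Set.Subset.antisymm (vn_le ?_) (vn_le ?_) <;> rintro _ ⟨i, rfl⟩
  · refine vn_mono (Set.singleton_subset_iff.2 (Set.mem_range_self i)) ?_
    rw [← h i]
    exact subset_vn _ rfl
  · refine vn_mono (Set.singleton_subset_iff.2 (Set.mem_range_self (f := fun i => scU (a i)) i)) ?_
    rw [h i]
    exact subset_vn _ rfl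

/-- A function of a variable moves little when the basis does. -/
lemma moved_le {Ω : H} {A : Set (H →L[ℂ] H)} (hA : Amb Ω A) {U : H ≃ₗᵢ[ℂ] H} (hU : U Ω = Ω)
    {a v v' : H →L[ℂ] H} (hsa : IsSelfAdjoint a) (hUv : conjU U v = v')
    (hv : v ∈ unitary (H →L[ℂ] H)) (hv' : v' ∈ unitary (H →L[ℂ] H)) (hvm : v ∈ vn A)
    (hv'm : v' ∈ vn A) {f : ℝ → ℝ} (hf : Continuous f) (n : ℕ) (c : ℤ → ℂ) {η : ℝ}
    (happ : ‖(cfc f a - lpoly n c v) Ω‖ ≤ η) :
    ‖(cfc f (conjU U a) - cfc f a) Ω‖ ≤ 2 * η + lw n c * ‖(v' - v) Ω‖ := by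
  have e1 : ‖(cfc f (conjU U a) - lpoly n c v') Ω‖ ≤ η := by
    rw [← conjU_cfc U hf hsa, ← hUv, ← conjU_lpoly]
    conv_lhs => rw [← hU]
    rw [norm_conjU_sub]
    exact happ
  have e2 := lpoly_sub_le hA hv' hv hv'm hvm n c
  calc ‖(cfc f (conjU U a) - cfc f a) Ω‖
      = ‖(cfc f (conjU U a) - lpoly n c v') Ω + (lpoly n c v' - lpoly n c v) Ω
        - (cfc f a - lpoly n c v) Ω‖ := by
        simp only [_root_.sub_apply]; congr 1; abel
    _ ≤ ‖(cfc f (conjU U a) - lpoly n c v') Ω‖ + ‖(lpoly n c v' - lpoly n c v) Ω‖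
        + ‖(cfc f a - lpoly n c v) Ω‖ :=
        (norm_sub_le _ _).trans (add_le_add (norm_add_le _ _) le_rfl)
    _ ≤ _ := by linarith

/-- The real part of an approximant of a self-adjoint member is as close. -/
lemma real_part_le {Ω : H} {A : Set (H →L[ℂ] H)} (hA : Amb Ω A) {q b : H →L[ℂ] H}
    (hq : q ∈ vn A) (hb : b ∈ vn A) (hsb : IsSelfAdjoint b) :
    ‖((2⁻¹ : ℂ) • (q + star q) - b) Ω‖ ≤ ‖(q - b) Ω‖ := by
  have hst : ‖(star q - b) Ω‖ = ‖(q - b) Ω‖ := by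
    rw [← hA.star_eq _ (vn_sub hq hb), star_sub, hsb.star_eq]
  have he : (2⁻¹ : ℂ) • (q + star q) - b = (2⁻¹ : ℂ) • ((q - b) + (star q - b)) := by module
  rw [he, _root_.smul_apply, _root_.add_apply, norm_smul, norm_inv, RCLike.norm_ofNat]
  linarith [norm_add_le ((q - b) Ω) ((star q - b) Ω)]

/-- The step inside the model. -/
lemma model_step (hOps : OpsGoal.{0}) (hSemi : SemiGoal) (hCalc : CalcGoal.{0})
    (hGns0 : GnsGoal.{0, 0}) (hConv : ConvGoal.{0}) (hMat : MatGoal.{0})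
    (hModel : ModelGoal.{0}) (hEnc : EncodeGoal.{0}) {ε δ : ℝ} (hε : 0 < ε) (hδ : 0 < δ) :
    ∃ K : ℕ, 2 ≤ K ∧ ∀ {H : Type} [NormedAddCommGroup H] [InnerProductSpace ℂ H]
      [CompleteSpace H] (Ω : H) (a : MIdx K → H →L[ℂ] H), IsSys Ω a →
      ∃ a' : MIdx K → H →L[ℂ] H, IsSys Ω a' ∧ vn (Set.range a') = vn (Set.range a) ∧
        ‖(triple a' 0 - triple a 0) (matVac Ω)‖ ≤ δ ∧
        ‖(triple a' 1 - triple a 1) (matVac Ω)‖ ≤ δ ∧
        ∃ C ∈ vn {triple a' 0, triple a' 1}, IsSelfAdjoint C ∧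
          ‖(C - triple a 2) (matVac Ω)‖ ≤ ε := by
  set η : ℝ := min δ ε / 16 with hη'
  have hη : 0 < η := div_pos (lt_min hδ hε) (by norm_num)
  have hηδ : 16 * η ≤ δ := by rw [hη']; linarith [min_le_left δ ε]
  have hηε : 16 * η ≤ ε := by rw [hη']; linarith [min_le_right δ ε]
  obtain ⟨hFc, -, -, -, -, hIc, -⟩ := id hSemi
  have hpc : Continuous (piece 2 1) := hIc.comp ((continuous_const.add hFc).div_const _)
  obtain ⟨n₁, c₁, hg⟩ := exists_lpoly.{0} hSemi hCalc hpc hη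
  obtain ⟨n₂, c₂, hid⟩ :=
    exists_lpoly.{0} hSemi hCalc (continuous_id : Continuous (id : ℝ → ℝ)) hη
  set L : ℝ := lw n₁ c₁ + lw n₂ c₂ with hL
  have hl₁ := lw_nonneg n₁ c₁
  have hl₂ := lw_nonneg n₂ c₂
  set δ₀ : ℝ := δ ^ 2 / (8 * L ^ 2 + 8) with hδ₀
  set ε₀ : ℝ := ε ^ 2 / (8 * L ^ 2 + 8) with hε₀
  obtain ⟨P₀, hP₀⟩ := hEnc 1 ε₀ δ₀ (by rw [hε₀]; positivity) (by rw [hδ₀]; positivity)
  obtain ⟨K, hKge, hKp, hw⟩ := exists_scale hSemi hη P₀
  have h0 : 0 < K := hKp.pos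
  refine ⟨K, hKp.two_le, fun {H} _ _ _ Ω a ha => ?_⟩
  have hA : Amb Ω (Set.range a) := amb_of_ops hOps ha.cyclic ha.tracial
  obtain ⟨hu, huvn⟩ := hConv Ω a ha
  have huR := vn_range_scU a huvn
  obtain ⟨u', Xt, hu', hu'R, -, hmove, hXt, herr⟩ :=
    hP₀ K hKp hKge Ω (fun i => scU (a i)) (slot K) (tgt K) hu (slot_ne_tgt K) (by simp [sq])
  obtain ⟨U, hUΩ, hUi, hUim⟩ := hGns0 Ω Ω (fun i => scU (a i)) u' (Or.inr ⟨hu, hu'⟩)
  set a' : MIdx K → H →L[ℂ] H := fun i => conjU U (a i) with ha'_def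
  have ha' : IsSys Ω a' := by
    have h := isSys_conjU U ha
    rwa [hUΩ] at h
  have haR : vn (Set.range a') = vn (Set.range a) := by
    rw [ha'_def, vn_range_conjU, ← huR, hUim, hu'R]
  have hu'm : ∀ i, u' i ∈ vn {a' i} := fun i => by
    have hum : scU (a i) ∈ vn {a i} := by rw [← huvn i]; exact subset_vn _ rfl
    have h := conjU_mem_vn U hum
    rwa [hUi i, Set.image_singleton] at h
  have hu'A : ∀ i, u' i ∈ vn (Set.range a) := fun i => by
    rw [← haR]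
    exact vn_mono (Set.singleton_subset_iff.2 (Set.mem_range_self i)) (hu'm i)
  have huA : ∀ i, scU (a i) ∈ vn (Set.range a) := fun i => by
    rw [← huR]
    exact subset_vn _ (Set.mem_range_self (f := fun i => scU (a i)) i)
  have hsc := ha.toIsSC
  have hG : ∀ i, ‖(cfc (piece 2 1) (a' i) - cfc (piece 2 1) (a i)) Ω‖
      ≤ 2 * η + lw n₁ c₁ * ‖(u' i - scU (a i)) Ω‖ := fun i =>
    moved_le hA hUΩ (ha.sa i) (hUi i) (hu.mem i) (hu'.mem i) (huA i) (hu'A i) hpc n₁ c₁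
      (hg Ω a hsc i)
  have hI : ∀ i, ‖(a' i - a i) Ω‖ ≤ 2 * η + lw n₂ c₂ * ‖(u' i - scU (a i)) Ω‖ := fun i => by
    have h := moved_le hA hUΩ (ha.sa i) (hUi i) (hu.mem i) (hu'.mem i) (huA i) (hu'A i)
      continuous_id n₂ c₂ (hid Ω a hsc i)
    rwa [cfc_id ℝ (conjU U (a i)) (ha'.sa i), cfc_id ℝ (a i) (ha.sa i)] at h
  have hcard : (Fintype.card (Fin K × Fin K) : ℝ) = (K : ℝ) ^ 2 := by simp [sq]
  have hKsq : (0 : ℝ) < (K : ℝ) ^ 2 := pow_pos (Nat.cast_pos.2 h0) 2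
  refine ⟨a', ha', haR, (x_close hSemi hMat ha.unit h0 ha.sa ha'.sa hη.le hw).trans
    (by linarith), ?_, ?_⟩
  · refine le_of_pow_le_pow_left₀ two_ne_zero hδ.le ?_
    refine (y_close hMat h0 Ω a a'
      (fun p => (4 * η + L * ‖(u' (slot K p) - scU (a (slot K p))) Ω‖) ^ 2)
      (fun p => sq_nonneg _) ?_).trans
      (mean_bound (fun p => ‖(u' (slot K p) - scU (a (slot K p))) Ω‖) hKsq hcard hmove hη.le
        hηδ hδ₀)
    rintro ⟨p, hp⟩
    have hs : slot K p = .inl (.inr ⟨p, hp⟩) := by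
      change slotFun p = _
      rw [slotFun, dif_pos hp]
    simp only [hs]
    have hd0 := norm_nonneg ((u' (.inl (.inr ⟨p, hp⟩)) - scU (a (.inl (.inr ⟨p, hp⟩)))) Ω)
    constructor
    · refine pow_le_pow_left₀ (norm_nonneg _) ((hG _).trans ?_) 2
      nlinarith
    · refine pow_le_pow_left₀ (norm_nonneg _) ((hI _).trans ?_) 2
      nlinarith
  · set t : Set (H →L[ℂ] H) := Set.range fun k : AIdx K => a' (.inl k) with ht
    have htA : vn t ⊆ vn (Set.range a) := by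
      rw [← haR]
      exact vn_mono (Set.range_subset_iff.2 fun k => Set.mem_range_self _)
    have hXt' : ∀ p, Xt (tgt K p) ∈ vn t := fun p => by
      refine vn_le ?_ (hXt p).2
      rintro _ ⟨s, rfl⟩
      obtain ⟨k, hk⟩ := slot_inl K s
      change u' (slot K s) ∈ vn t
      rw [hk]
      exact vn_mono (Set.singleton_subset_iff.2
        (Set.mem_range_self (f := fun k : AIdx K => a' (.inl k)) k)) (hu'm _)
    set cp : Fin K × Fin K → H →L[ℂ] H := fun p =>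
      (2⁻¹ : ℂ) • (lpoly n₂ c₂ (Xt (tgt K p)) + star (lpoly n₂ c₂ (Xt (tgt K p)))) with hcp
    have hqt : ∀ p, lpoly n₂ c₂ (Xt (tgt K p)) ∈ vn t := fun p => lpoly_mem (hXt' p) _ _
    have hcpt : ∀ p, cp p ∈ vn t := fun p => vn_smul _ (vn_add (hqt p) (vn_star (hqt p)))
    have hcps : ∀ p, IsSelfAdjoint (cp p) := fun p => by
      change star _ = _
      rw [hcp, star_smul, star_add, star_star, star_inv₀, star_ofNat, add_comm]
    obtain ⟨C, hCm, hCs, hC⟩ := s_close hMat h0 (Ω := Ω) a' t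
      (fun i j c hc => (hModel K Ω a' hKp.two_le ha').2 i j c hc) (fun p => a (.inr p)) cp hcps
      hcpt (fun p => (4 * η + L * ‖(Xt (tgt K p) - scU (a (tgt K p))) Ω‖) ^ 2) (fun p => by
        refine pow_le_pow_left₀ (norm_nonneg _) ?_ 2
        have hb : a (.inr p) ∈ vn (Set.range a) := subset_vn _ (Set.mem_range_self _)
        refine (real_part_le hA (htA (hqt p)) hb (ha.sa _)).trans ?_
        have e := lpoly_sub_le hA (hXt p).1 (hu.mem (tgt K p)) (htA (hXt' p)) (huA _) n₂ c₂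
        have e3 := hid Ω a hsc (Sum.inr p)
        rw [cfc_id ℝ (a (Sum.inr p)) (ha.sa _)] at e3
        calc ‖(lpoly n₂ c₂ (Xt (tgt K p)) - a (.inr p)) Ω‖
            = ‖(lpoly n₂ c₂ (Xt (tgt K p)) - lpoly n₂ c₂ (scU (a (tgt K p)))) Ω
              - (a (.inr p) - lpoly n₂ c₂ (scU (a (tgt K p)))) Ω‖ := by
              simp only [_root_.sub_apply]; congr 1; abel
          _ ≤ lw n₂ c₂ * ‖(Xt (tgt K p) - scU (a (tgt K p))) Ω‖ + η :=
              (norm_sub_le _ _).trans (add_le_add e e3)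
          _ ≤ _ := by nlinarith [norm_nonneg ((Xt (tgt K p) - scU (a (tgt K p))) Ω)])
    refine ⟨C, hCm, hCs, le_of_pow_le_pow_left₀ two_ne_zero hε.le (hC.trans ?_)⟩
    exact mean_bound (fun p => ‖(Xt (tgt K p) - scU (a (tgt K p))) Ω‖) hKsq hcard herr hη.le
      hηε hε₀

end StepTools

/-- A triple can be moved a little so that the third member is almost in the algebra of the first
two. -/
theorem stepGoal (hOps : OpsGoal.{0}) (hSemi : SemiGoal) (hCalc : CalcGoal.{0})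
    (hGns0 : GnsGoal.{0, 0}) (hGns : GnsGoal.{0, u}) (hConv : ConvGoal.{0}) (hExist : ExistGoal)
    (hEnc : EncodeGoal.{0}) (hMat : MatGoal.{0}) (hModel : ModelGoal.{0}) : StepGoal.{u} := by
  intro H _ _ _ Ω X hX ε δ hε hδ
  obtain ⟨K, hK2, hstep⟩ := model_step hOps hSemi hCalc hGns0 hConv hMat hModel hEnc hε hδ
  obtain ⟨H₀, _, _, _, Ω₀, a, ha⟩ := hExist (MIdx K)
  obtain ⟨a', ha', haR, hx, hy, C, hCm, hCs, hC⟩ := hstep Ω₀ a ha
  obtain ⟨hT, -⟩ := hModel K Ω₀ a hK2 ha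
  obtain ⟨hT', -⟩ := hModel K Ω₀ a' hK2 ha'
  obtain ⟨V, hVΩ, hVi, hVim⟩ := hGns (matVac Ω₀) Ω (triple a) X (Or.inl ⟨hT, hX⟩)
  refine ⟨fun k => conjU V (triple a' k), ?_, ?_, ?_, ?_, conjU V C, ?_, ?_, ?_⟩
  · have h := isSys_conjU V hT'
    rwa [hVΩ] at h
  · rw [vn_range_conjU, ← hVim]
    refine congrArg _ (Set.Subset.antisymm (vn_le ?_) (vn_le ?_))
    · exact triple_subset hSemi hCalc hMat hModel hK2 ha ha' haR.subset
    · exact triple_subset hSemi hCalc hMat hModel hK2 ha' ha haR.symm.subset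
  · rw [← hVi, ← hVΩ, norm_conjU_sub]
    exact hx
  · rw [← hVi, ← hVΩ, norm_conjU_sub]
    exact hy
  · have h := conjU_mem_vn V hCm
    rwa [Set.image_pair] at h
  · change star (conjU V C) = conjU V C
    rw [← conjU_star, hCs.star_eq]
  · rw [← hVi, ← hVΩ, norm_conjU_sub]
    exact hC

end Vale.Agent.P086
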