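import Vale.Agent.P086.Spec
import Vale.Agent.P086.Lemmas

/-!
# Tools for the step: algebras of matrices of operators and norm bounds for blocks
-/

noncomputable section

namespace Vale.Agent.P086.StepTools

open scoped InnerProductSpace BigOperators

universe u

variable {H : Type u} [NormedAddCommGroup H] [InnerProductSpace ℂ H] [CompleteSpace H] {K : ℕ}

/-- A coordinate of the space of matrices. -/
def pr (p : Fin K × Fin K) : HK H K →L[ℂ] H :=
  (ContinuousLinearMap.proj p).comp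
    (PiLp.continuousLinearEquiv 2 ℂ fun _ : Fin K × Fin K => H :
      HK H K →L[ℂ] (Fin K × Fin K → H))

/-- The inclusion of a coordinate. -/
def inj (p : Fin K × Fin K) : H →L[ℂ] HK H K :=
  ((PiLp.continuousLinearEquiv 2 ℂ fun _ : Fin K × Fin K => H).symm :
      (Fin K × Fin K → H) →L[ℂ] HK H K).comp
    (ContinuousLinearMap.single ℂ (fun _ : Fin K × Fin K => H) p)

lemma pr_apply (p : Fin K × Fin K) (x : HK H K) : pr p x = x p := rfl

lemma inj_apply (p q : Fin K × Fin K) (v : H) : inj p v q = if q = p then v else 0 := by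
  change (Pi.single p v : Fin K × Fin K → H) q = _
  rw [Pi.single_apply]

lemma matRep_apply (A : Fin K → Fin K → H →L[ℂ] H) (x : HK H K) (p : Fin K × Fin K) :
    matRep A x p = ∑ j, A p.1 j (x (j, p.2)) := by
  simp [matRep, ContinuousLinearMap.coe_comp']

lemma pr_entry (i : Fin K) (q : Fin K) (c : H →L[ℂ] H) :
    (pr (i, q)).comp (matRep (entry i i c)) = c.comp (pr (i, q)) := by
  ext x
  simp only [ContinuousLinearMap.coe_comp', Function.comp_apply, pr_apply, matRep_apply]
  rw [Finset.sum_eq_single i (fun j _ hj => by simp [entry, hj]) (by simp)]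
  simp [entry]

lemma entry_inj (i : Fin K) (q : Fin K) (c : H →L[ℂ] H) :
    (matRep (entry i i c)).comp (inj (i, q)) = (inj (i, q)).comp c := by
  ext v p
  obtain ⟨a, b⟩ := p
  simp only [ContinuousLinearMap.coe_comp', Function.comp_apply, matRep_apply, inj_apply]
  rw [Finset.sum_eq_single i (fun j _ hj => by simp [entry, hj]) (by simp)]
  by_cases ha : a = i <;> by_cases hb : b = q <;> simp [entry, ha, hb]

lemma entry_eq_sum (i : Fin K) (c : H →L[ℂ] H) :
    matRep (entry i i c) = ∑ q, ((inj (i, q)).comp c).comp (pr (i, q)) := by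
  ext x p
  obtain ⟨a, b⟩ := p
  simp only [matRep_apply, sum_apply, WithLp.ofLp_sum, Finset.sum_apply,
    ContinuousLinearMap.coe_comp', Function.comp_apply, inj_apply, pr_apply]
  rw [Finset.sum_eq_single i (fun j _ hj => by simp [entry, hj]) (by simp),
    Finset.sum_eq_single b (fun q _ hq => by simp [Ne.symm hq]) (by simp)]
  by_cases ha : a = i <;> simp [entry, ha]

/-- The commutant computation behind `corner_mem_vn`, for abstract inclusions. -/
lemma comm_of_comm {G : Type u} [NormedAddCommGroup G] [NormedSpace ℂ G] {Q : Type*} [Fintype Q]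
    (P : Q → G →L[ℂ] H) (J : Q → H →L[ℂ] G) (E : (H →L[ℂ] H) → (G →L[ℂ] G))
    (hE : ∀ d, E d = ∑ q, ((J q).comp d).comp (P q))
    (hJ : ∀ q d, (E d).comp (J q) = (J q).comp d) (y : G →L[ℂ] G) (c : H →L[ℂ] H)
    (h1 : y * E 1 = E 1 * y) (hc : E c * E 1 = E c ∧ E 1 * E c = E c)
    (hzc : ∀ q r, ((P q).comp y).comp (J r) * c = c * ((P q).comp y).comp (J r)) :
    y * E c = E c * y := by
  have e1 : y * E c = E 1 * y * E c := by rw [← h1, mul_assoc, hc.2]
  have e2 : E c * y = E c * y * E 1 := by rw [mul_assoc, h1, ← mul_assoc, hc.1]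
  rw [e1, e2, hE 1, hE c]
  simp only [Finset.sum_mul, Finset.mul_sum]
  refine Finset.sum_congr rfl fun q _ => Finset.sum_congr rfl fun r _ => ?_
  calc ((J r).comp 1).comp (P r) * y * ((J q).comp c).comp (P q)
      = ((J r).comp (((P r).comp y).comp (J q) * c)).comp (P q) := rfl
    _ = ((J r).comp (c * ((P r).comp y).comp (J q))).comp (P q) := by rw [hzc]
    _ = ((J r).comp c).comp (P r) * y * ((J q).comp 1).comp (P q) := rfl

lemma z_comm {G : Type u} [NormedAddCommGroup G] [NormedSpace ℂ G]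
    (P : G →L[ℂ] H) (J : H →L[ℂ] G) (y e : G →L[ℂ] G) (b : H →L[ℂ] H)
    (hP : P.comp e = b.comp P) (hJ : e.comp J = J.comp b) (h : y * e = e * y) :
    b * (P.comp y).comp J = (P.comp y).comp J * b := by
  calc b * (P.comp y).comp J = ((b.comp P).comp y).comp J := rfl
    _ = (P.comp (e * y)).comp J := by rw [← hP]; rfl
    _ = (P.comp (y * e)).comp J := by rw [h]
    _ = (P.comp y).comp (e.comp J) := rfl
    _ = (P.comp y).comp J * b := by rw [hJ]; rfl

lemma entry_one_mul (hMat : MatGoal.{u}) (i : Fin K) (d : H →L[ℂ] H) :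
    matRep (entry i i d) * matRep (entry i i 1) = matRep (entry i i d) ∧
      matRep (entry i i 1) * matRep (entry i i d) = matRep (entry i i d) := by
  obtain ⟨-, hAB, -⟩ := hMat (H := H) K 0 i.pos
  rw [(hAB _ _).1, (hAB _ _).1]
  constructor <;> congr 1 <;> funext k l <;>
    (rw [Finset.sum_eq_single i (fun j _ hj => by simp [entry, hj]) (by simp)]) <;>
    by_cases hk : k = i <;> by_cases hl : l = i <;> simp [entry, hk, hl]

lemma star_entry (hMat : MatGoal.{u}) (i : Fin K) (d : H →L[ℂ] H) :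
    star (matRep (entry i i d)) = matRep (entry i i (star d)) := by
  obtain ⟨-, hAB, -⟩ := hMat (H := H) K 0 i.pos
  rw [(hAB (entry i i d) (entry i i d)).2.1]
  congr 1
  funext k l
  by_cases hk : k = i <;> by_cases hl : l = i <;> simp [entry, hk, hl]

/-- A corner that contains the generators contains the generated algebra. -/
lemma corner_mem_vn (hMat : MatGoal.{u}) {S : Set (HK H K →L[ℂ] HK H K)}
    {t : Set (H →L[ℂ] H)} (i : Fin K) (h1 : matRep (entry i i (1 : H →L[ℂ] H)) ∈ vn S)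
    (h2 : ∀ b ∈ t, matRep (entry i i b) ∈ vn S) {c : H →L[ℂ] H} (hc : c ∈ vn t) :
    matRep (entry i i c) ∈ vn S := by
  intro y hy
  have hz : ∀ q r : Fin K, ((pr (i, q)).comp y).comp (inj (i, r)) * c
      = c * ((pr (i, q)).comp y).comp (inj (i, r)) := by
    intro q r
    apply hc
    intro b hb
    have hb' : matRep (entry i i b) ∈ vn S := by
      rcases hb with hb | ⟨w, hw, rfl⟩
      · exact h2 b hb
      · have h := vn_star (h2 w hw)
        rw [star_entry hMat] at h
        exact h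
    have hyb := hb' y hy
    exact z_comm (G := HK H K) (pr (i, q)) (inj (i, r)) y (matRep (entry i i b)) b
      (pr_entry i q b) (entry_inj i r b) hyb
  have hy1 := h1 y hy
  exact comm_of_comm (G := HK H K) (fun q => pr (i, q)) (fun q => inj (i, q))
    (fun d => matRep (entry i i d)) (fun d => entry_eq_sum i d) (fun q d => entry_inj i q d) y c
    hy1 (entry_one_mul hMat i c) hz

lemma entry_mul_mul (hMat : MatGoal.{u}) (i j k l : Fin K) (x w : H →L[ℂ] H)
    (A : Fin K → Fin K → H →L[ℂ] H) :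
    matRep (entry i j x) * matRep A * matRep (entry k l w)
      = matRep (entry i l (x * A j k * w)) := by
  obtain ⟨-, hAB, -⟩ := hMat (H := H) K 0 i.pos
  rw [(hAB _ _).1, (hAB _ _).1]
  congr 1
  funext a b
  rw [Finset.sum_eq_single k (fun m _ hm => by simp [entry, hm]) (by simp),
    Finset.sum_eq_single j (fun m _ hm => by simp [entry, hm]) (by simp)]
  by_cases ha : a = i <;> by_cases hb : b = l <;> simp [entry, ha, hb]

lemma matRep_sub (hMat : MatGoal.{u}) (hK : 0 < K) (A B : Fin K → Fin K → H →L[ℂ] H) :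
    matRep A - matRep B = matRep (fun i j => A i j - B i j) := by
  rw [sub_eq_iff_eq_add, ((hMat (H := H) K 0 hK).2.1 _ _).2.2.1]
  simp

/-- All matrices over the generated algebra. -/
lemma matRep_mem_vn (hMat : MatGoal.{u}) {S : Set (HK H K →L[ℂ] HK H K)}
    {t : Set (H →L[ℂ] H)} (i₀ : Fin K)
    (h1 : ∀ i j : Fin K, matRep (entry i j (1 : H →L[ℂ] H)) ∈ vn S)
    (h2 : ∀ b ∈ t, matRep (entry i₀ i₀ b) ∈ vn S) {A : Fin K → Fin K → H →L[ℂ] H}
    (hA : ∀ i j, A i j ∈ vn t) : matRep A ∈ vn S := by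
  obtain ⟨-, hAB, -⟩ := hMat (H := H) K 0 i₀.pos
  let Φ : (Fin K → Fin K → H →L[ℂ] H) →+ (HK H K →L[ℂ] HK H K) :=
    AddMonoidHom.mk' matRep fun A B => ((hAB A B).2.2.1).symm
  have hd : A = ∑ i, ∑ j, entry i j (A i j) := by
    funext k l
    simp only [Finset.sum_apply]
    rw [Finset.sum_eq_single k (fun m _ hm => Finset.sum_eq_zero fun _ _ => by
        simp [entry, Ne.symm hm]) (by simp),
      Finset.sum_eq_single l (fun m _ hm => by simp [entry, Ne.symm hm]) (by simp)]
    simp [entry]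
  have hmem : ∀ i j, matRep (entry i j (A i j)) ∈ vn S := fun i j => by
    have h := vn_mul (vn_mul (h1 i i₀) (corner_mem_vn hMat i₀ (h1 i₀ i₀) h2 (hA i j))) (h1 i₀ j)
    rw [entry_mul_mul hMat] at h
    simpa [entry] using h
  rw [hd]
  change Φ _ ∈ vn S
  simp only [map_sum]
  exact vn_sum _ fun i _ => vn_sum _ fun j _ => hmem i j

/-! ## Blocks -/

lemma herm_sub (b b' : Fin K × Fin K → H →L[ℂ] H) (i j : Fin K) :
    herm b i j - herm b' i j = herm (fun p => b p - b' p) i j := by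
  unfold herm
  split_ifs
  · rfl
  all_goals
    module

lemma norm_herm_sq_le (Ω : H) (b : Fin K × Fin K → H →L[ℂ] H) (i j : Fin K) :
    ‖herm b i j Ω‖ ^ 2 ≤ ‖b (i, j) Ω‖ ^ 2 + ‖b (j, i) Ω‖ ^ 2 := by
  have h2 : ‖((Real.sqrt 2)⁻¹ : ℂ)‖ ^ 2 = 1 / 2 := by
    rw [norm_inv, Complex.norm_real, Real.norm_eq_abs, inv_pow, sq_abs,
      Real.sq_sqrt zero_le_two, one_div]
  have key : ∀ x y : H, ‖x‖ ^ 2 + ‖y‖ ^ 2 ≥ 1 / 2 * (‖x‖ + ‖y‖) ^ 2 := fun x y => by
    nlinarith [sq_nonneg (‖x‖ - ‖y‖)]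
  unfold herm
  split_ifs with h h'
  · subst h
    nlinarith [sq_nonneg ‖b (i, i) Ω‖]
  · rw [_root_.smul_apply, _root_.add_apply, _root_.smul_apply, norm_smul, mul_pow, h2]
    refine le_trans ?_ (key _ _)
    gcongr
    refine (norm_add_le _ _).trans (le_of_eq ?_)
    rw [norm_smul, Complex.norm_I, one_mul]
  · rw [_root_.smul_apply, _root_.sub_apply, _root_.smul_apply, norm_smul, mul_pow, h2,
      add_comm]
    refine le_trans ?_ (key _ _)
    gcongr
    refine (norm_sub_le _ _).trans (le_of_eq ?_)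
    rw [norm_smul, Complex.norm_I, one_mul]

lemma star_herm {b : Fin K × Fin K → H →L[ℂ] H} (hb : ∀ p, IsSelfAdjoint (b p))
    (i j : Fin K) : star (herm b j i) = herm b i j := by
  have hr : star ((Real.sqrt 2)⁻¹ : ℂ) = ((Real.sqrt 2)⁻¹ : ℂ) := by
    rw [star_inv₀, Complex.star_def, Complex.conj_ofReal]
  unfold herm
  rcases lt_trichotomy i j with h | rfl | h
  · rw [if_neg h.ne', if_neg (not_lt.2 h.le), if_neg h.ne, if_pos h, star_smul, hr, star_sub,
      star_smul, (hb _).star_eq, (hb _).star_eq, Complex.star_def, Complex.conj_I, neg_smul,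
      sub_neg_eq_add]
  · rw [if_pos rfl, (hb _).star_eq]
  · rw [if_neg h.ne, if_pos h, if_neg h.ne', if_neg (not_lt.2 h.le), star_smul, hr, star_add,
      star_smul, (hb _).star_eq, (hb _).star_eq, Complex.star_def, Complex.conj_I, neg_smul,
      ← sub_eq_add_neg]

/-- Coordinates are recovered from the Hermitian matrix. -/
lemma coord_mem {M : Set (H →L[ℂ] H)} (hadd : ∀ x ∈ M, ∀ y ∈ M, x + y ∈ M)
    (hsmul : ∀ (c : ℂ), ∀ x ∈ M, c • x ∈ M) (b : Fin K × Fin K → H →L[ℂ] H)
    (hh : ∀ i j, herm b i j ∈ M) : ∀ p, b p ∈ M := by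
  have hs : ((Real.sqrt 2)⁻¹ : ℂ) * 2 ≠ 0 := by
    refine mul_ne_zero (inv_ne_zero ?_) two_ne_zero
    exact_mod_cast (Real.sqrt_pos.2 two_pos).ne'
  have hlt : ∀ i j : Fin K, i < j → b (i, j) ∈ M ∧ b (j, i) ∈ M := by
    intro i j h
    set r : ℂ := ((Real.sqrt 2)⁻¹ : ℂ) with hr
    have e1 : herm b i j = r • (b (i, j) + Complex.I • b (j, i)) := by
      rw [herm, if_neg h.ne, if_pos h]
    have e2 : herm b j i = r • (b (i, j) - Complex.I • b (j, i)) := by
      rw [herm, if_neg h.ne', if_neg (not_lt.2 h.le)]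
    constructor
    · have he : (r * 2)⁻¹ • (herm b i j + herm b j i) = b (i, j) := by
        rw [e1, e2, ← smul_add, add_add_sub_cancel, ← two_smul ℂ, smul_smul r 2,
          inv_smul_smul₀ hs]
      exact he ▸ hsmul _ _ (hadd _ (hh i j) _ (hh j i))
    · have he : (r * 2 * Complex.I)⁻¹ • (herm b i j + (-1 : ℂ) • herm b j i) = b (j, i) := by
        rw [e1, e2, neg_one_smul, ← sub_eq_add_neg, ← smul_sub, add_sub_sub_cancel,
          ← two_smul ℂ, smul_smul r 2, smul_smul (r * 2),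
          inv_smul_smul₀ (mul_ne_zero hs Complex.I_ne_zero)]
      exact he ▸ hsmul _ _ (hadd _ (hh i j) _ (hsmul _ _ (hh j i)))
  rintro ⟨i, j⟩
  rcases lt_trichotomy i j with h | rfl | h
  · exact (hlt i j h).1
  · simpa [herm] using hh i i
  · exact (hlt j i h).2

/-- The squared vector norm of a scaled Hermitian difference. -/
lemma norm_scaled_block_le (hMat : MatGoal.{u}) (hK : 0 < K) (Ω : H)
    (A B : Fin K → Fin K → H →L[ℂ] H) (D : Fin K × Fin K → ℝ)
    (h : ∀ i j, ‖(A i j - B i j) Ω‖ ^ 2 ≤ D (i, j) + D (j, i)) :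
    ‖(((Real.sqrt K)⁻¹ : ℂ) • matRep A - ((Real.sqrt K)⁻¹ : ℂ) • matRep B) (matVac Ω)‖ ^ 2
      ≤ 2 * (∑ p, D p) / (K : ℝ) ^ 2 := by
  have hK' : (0 : ℝ) < K := Nat.cast_pos.2 hK
  set C : Fin K → Fin K → H →L[ℂ] H := fun i j => A i j - B i j with hC
  have hn := ((hMat (H := H) K Ω hK).2.1 C C).2.2.2.2
  have he : (((Real.sqrt K)⁻¹ : ℂ) • matRep A - ((Real.sqrt K)⁻¹ : ℂ) • matRep B)
      = ((Real.sqrt K)⁻¹ : ℂ) • matRep C := by
    rw [hC, ← matRep_sub hMat hK]
    exact (smul_sub _ _ _).symm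
  rw [he, _root_.smul_apply, norm_smul, mul_pow, hn, norm_inv, Complex.norm_real,
    Real.norm_eq_abs, inv_pow, sq_abs, Real.sq_sqrt hK'.le, ← mul_assoc, ← mul_inv, ← sq,
    inv_mul_eq_div]
  refine div_le_div_of_nonneg_right ?_ (sq_nonneg _)
  rw [two_mul]
  refine (Finset.sum_le_sum fun i _ => Finset.sum_le_sum fun j _ => h i j).trans (le_of_eq ?_)
  simp only [Finset.sum_add_distrib]
  rw [Fintype.sum_prod_type, Finset.sum_comm (f := fun i j => D (j, i))]

end Vale.Agent.P086.StepTools
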