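import Vale.Agent.P086.Final.StepTools
import Vale.Agent.P086.Final.StepMatrix

/-!
# The step inside the model: algebras and the three bounds
-/

noncomputable section

namespace Vale.Agent.P086.StepTools

open scoped InnerProductSpace BigOperators

/-- The coordinates of the first two members as slots: all but the first diagonal variable. -/
def slotFun {K : ℕ} (p : Fin K × Fin K) : MIdx K :=
  if h : ¬ ((p.2 : ℕ) = 0 ∧ (p.1 : ℕ) ≠ 0) then .inl (.inr ⟨p, h⟩) else .inl (.inl p.1)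

lemma slotFun_injective {K : ℕ} : Function.Injective (slotFun (K := K)) := by
  intro p q h
  unfold slotFun at h
  by_cases hp : ¬ ((p.2 : ℕ) = 0 ∧ (p.1 : ℕ) ≠ 0)
  · by_cases hq : ¬ ((q.2 : ℕ) = 0 ∧ (q.1 : ℕ) ≠ 0)
    · rw [dif_pos hp, dif_pos hq] at h
      exact congrArg Subtype.val (Sum.inr_injective (Sum.inl_injective h))
    · rw [dif_pos hp, dif_neg hq] at h
      simp at h
  · by_cases hq : ¬ ((q.2 : ℕ) = 0 ∧ (q.1 : ℕ) ≠ 0)
    · rw [dif_neg hp, dif_pos hq] at h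
      simp at h
    · rw [dif_neg hp, dif_neg hq] at h
      exact Prod.ext (Sum.inl_injective (Sum.inl_injective h))
        (Fin.ext ((not_not.1 hp).1.trans (not_not.1 hq).1.symm))

/-- The slots as an embedding. -/
def slot (K : ℕ) : Fin K × Fin K ↪ MIdx K := ⟨slotFun, slotFun_injective⟩

/-- The targets. -/
def tgt (K : ℕ) : Fin K × Fin K ↪ MIdx K := ⟨Sum.inr, Sum.inr_injective⟩

lemma slot_ne_tgt (K : ℕ) (s t : Fin K × Fin K) : slot K s ≠ tgt K t := by
  simp only [slot, tgt, Function.Embedding.coeFn_mk, slotFun]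
  split_ifs <;> simp

lemma slot_inl (K : ℕ) (s : Fin K × Fin K) : ∃ k : AIdx K, slot K s = .inl k := by
  simp only [slot, Function.Embedding.coeFn_mk, slotFun]
  split_ifs <;> exact ⟨_, rfl⟩

variable {H : Type} [NormedAddCommGroup H] [InnerProductSpace ℂ H] [CompleteSpace H] {K : ℕ}

/-- The entries of the triple lie in the algebra of the variables. -/
lemma entries_mem (hSemi : SemiGoal) (hCalc : CalcGoal.{0}) {Ω : H}
    {a : MIdx K → H →L[ℂ] H} (ha : IsSys Ω a) (i j : Fin K) :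
    xBlock (fun i => a (.inl (.inl i))) i j ∈ vn (Set.range a) ∧
      gaugedBlock (fun p => a (.inl (.inr p))) i j ∈ vn (Set.range a) ∧
      herm (fun p => a (.inr p)) i j ∈ vn (Set.range a) := by
  obtain ⟨hFc, -, -, -, -, hIc, -⟩ := hSemi
  have hpc : ∀ K i : ℕ, Continuous (piece K i) := fun K i =>
    hIc.comp ((continuous_const.add hFc).div_const _)
  have hm : ∀ k, a k ∈ vn (Set.range a) := fun k => subset_vn _ (Set.mem_range_self k)
  have hf : ∀ (K' i' : ℕ) k, cfc (piece K' i') (a k) ∈ vn (Set.range a) := fun K' i' k =>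
    vn_mono (Set.singleton_subset_iff.2 (Set.mem_range_self k))
      (((hCalc Ω a ha.toIsSC k).2 _ (hpc K' i')).2.1)
  have hh : ∀ b : Fin K × Fin K → H →L[ℂ] H, (∀ p, b p ∈ vn (Set.range a)) →
      herm b i j ∈ vn (Set.range a) := fun b hb => by
    unfold herm
    split_ifs
    · exact hb _
    · exact vn_smul _ (vn_add (hb _) (vn_smul _ (hb _)))
    · exact vn_smul _ (vn_sub (hb _) (vn_smul _ (hb _)))
  refine ⟨?_, ?_, hh _ fun p => hm _⟩
  · unfold xBlock
    split_ifs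
    exacts [hf _ _ _, vn_zero]
  · unfold gaugedBlock
    split_ifs
    · exact hf _ _ _
    · exact hf _ _ _
    · refine hh _ fun p => ?_
      split_ifs
      exacts [vn_zero, hm _]

/-- The triple generates all matrices over the algebra of all variables. -/
lemma matRep_mem_triple (hMat : MatGoal.{0}) (hModel : ModelGoal.{0}) {Ω : H}
    {a : MIdx K → H →L[ℂ] H} (hK : 2 ≤ K) (ha : IsSys Ω a) {A : Fin K → Fin K → H →L[ℂ] H}
    (hA : ∀ i j, A i j ∈ vn (Set.range a)) : matRep A ∈ vn (Set.range (triple a)) := by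
  have h0 : 0 < K := by omega
  obtain ⟨-, hgen⟩ := hModel K Ω a hK ha
  have hsub : ({triple a 0, triple a 1} : Set (HK H K →L[ℂ] HK H K)) ⊆ Set.range (triple a) := by
    rintro _ (rfl | rfl) <;> exact Set.mem_range_self _
  set i₀ : Fin K := ⟨0, h0⟩
  have h1 : ∀ i j, matRep (entry i j (1 : H →L[ℂ] H)) ∈ vn (Set.range (triple a)) := fun i j =>
    vn_mono hsub (hgen i j 1 vn_one)
  obtain ⟨-, hAB, hsm, -⟩ := hMat (H := H) K Ω h0
  let M : Set (H →L[ℂ] H) := {x | matRep (entry i₀ i₀ x) ∈ vn (Set.range (triple a))}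
  have hadd : ∀ x ∈ M, ∀ y ∈ M, x + y ∈ M := fun x hx y hy => by
    have hx' : matRep (entry i₀ i₀ x) ∈ vn (Set.range (triple a)) := hx
    have hy' : matRep (entry i₀ i₀ y) ∈ vn (Set.range (triple a)) := hy
    have h := vn_add hx' hy'
    rw [(hAB _ _).2.2.1] at h
    change matRep (entry i₀ i₀ (x + y)) ∈ vn (Set.range (triple a))
    convert h using 2
    funext k l
    by_cases hk : k = i₀ <;> by_cases hl : l = i₀ <;> simp [entry, hk, hl]
  have hsmul : ∀ (c : ℂ), ∀ x ∈ M, c • x ∈ M := fun c x hx => by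
    have hx' : matRep (entry i₀ i₀ x) ∈ vn (Set.range (triple a)) := hx
    have h := vn_smul c hx'
    rw [hsm] at h
    change matRep (entry i₀ i₀ (c • x)) ∈ vn (Set.range (triple a))
    convert h using 2
    funext k l
    by_cases hk : k = i₀ <;> by_cases hl : l = i₀ <;> simp [entry, hk, hl]
  have hherm : ∀ i j, herm (fun p => a (.inr p)) i j ∈ M := fun i j => by
    have hT : matRep (herm fun p => a (.inr p)) ∈ vn (Set.range (triple a)) := by
      have hne : ((Real.sqrt K)⁻¹ : ℂ) ≠ 0 := by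
        refine inv_ne_zero ?_
        exact_mod_cast (Real.sqrt_pos.2 (by exact_mod_cast h0 : (0 : ℝ) < K)).ne'
      have h : (((Real.sqrt K)⁻¹ : ℂ) • matRep (herm fun p => a (.inr p)))
          ∈ vn (Set.range (triple a)) := subset_vn _ ⟨2, rfl⟩
      have h2 := vn_smul ((Real.sqrt K)⁻¹ : ℂ)⁻¹ h
      have he : ∀ (r : ℂ) (T : HK H K →L[ℂ] HK H K), r ≠ 0 → r⁻¹ • r • T = T := fun r T hr =>
        inv_smul_smul₀ hr T
      rwa [he _ _ hne] at h2
    have h := vn_mul (vn_mul (h1 i₀ i) hT) (h1 j i₀)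
    rw [entry_mul_mul hMat, one_mul, mul_one] at h
    exact h
  refine matRep_mem_vn hMat i₀ h1 ?_ hA
  rintro _ ⟨k, rfl⟩
  rcases k with k | p
  · exact vn_mono hsub (hgen i₀ i₀ _ (subset_vn _ (Set.mem_range_self k)))
  · exact coord_mem (M := M) hadd hsmul _ hherm p

/-- Two systems with the same algebra give triples with the same algebra. -/
lemma triple_subset (hSemi : SemiGoal) (hCalc : CalcGoal.{0}) (hMat : MatGoal.{0})
    (hModel : ModelGoal.{0}) {Ω : H} {a b : MIdx K → H →L[ℂ] H} (hK : 2 ≤ K)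
    (ha : IsSys Ω a) (hb : IsSys Ω b) (hab : vn (Set.range b) ⊆ vn (Set.range a)) :
    Set.range (triple b) ⊆ vn (Set.range (triple a)) := by
  rintro _ ⟨k, rfl⟩
  have he := fun i j => entries_mem hSemi hCalc hb i j
  fin_cases k
  · exact matRep_mem_triple hMat hModel hK ha fun i j => hab (he i j).1
  · exact vn_smul _ (matRep_mem_triple hMat hModel hK ha fun i j => hab (he i j).2.1)
  · exact vn_smul _ (matRep_mem_triple hMat hModel hK ha fun i j => hab (he i j).2.2)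

/-- A size at which the pieces are narrow. -/
lemma exists_scale (hSemi : SemiGoal) {η : ℝ} (hη : 0 < η) (P₀ : ℕ) :
    ∃ K : ℕ, P₀ ≤ K ∧ K.Prime ∧ ∀ y y' : ℝ, y ∈ Set.Icc 0 1 → y' ∈ Set.Icc 0 1 →
      |y - y'| ≤ 1 / K → |scInv y - scInv y'| ≤ η := by
  obtain ⟨-, -, -, -, -, hIc, -⟩ := hSemi
  obtain ⟨r, hr, hunif⟩ := Metric.uniformContinuousOn_iff.1
    ((isCompact_Icc : IsCompact (Set.Icc (0 : ℝ) 1)).uniformContinuousOn_of_continuous
      hIc.continuousOn) η hη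
  obtain ⟨K, hKge, hKp⟩ := Nat.exists_infinite_primes (max P₀ (⌊1 / r⌋₊ + 2))
  refine ⟨K, (le_max_left _ _).trans hKge, hKp, fun y y' hy hy' hd => ?_⟩
  refine (hunif y hy y' hy' (lt_of_le_of_lt hd ?_)).le
  rw [div_lt_iff₀ (Nat.cast_pos.2 hKp.pos)]
  have h1 : 1 / r < (K : ℝ) := (Nat.lt_floor_add_one _).trans_le
    (by exact_mod_cast (show ⌊1 / r⌋₊ + 1 ≤ K by omega))
  rw [div_lt_iff₀ hr] at h1
  linarith

/-- The pieces are narrow: the first member moves little. -/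
lemma x_close (hSemi : SemiGoal) (hMat : MatGoal.{0}) {Ω : H} (hΩ : ‖Ω‖ = 1)
    {a a' : MIdx K → H →L[ℂ] H} (hK : 0 < K) (ha : ∀ k, IsSelfAdjoint (a k))
    (ha' : ∀ k, IsSelfAdjoint (a' k)) {η : ℝ} (hη : 0 ≤ η)
    (hw : ∀ y y' : ℝ, y ∈ Set.Icc 0 1 → y' ∈ Set.Icc 0 1 → |y - y'| ≤ 1 / K →
      |scInv y - scInv y'| ≤ η) :
    ‖(triple a' 0 - triple a 0) (matVac Ω)‖ ≤ 2 * η := by
  obtain ⟨hFc, hFm, -, hF0, hF2, hIc, -⟩ := hSemi
  have hK' : (0 : ℝ) < K := Nat.cast_pos.2 hK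
  have hF01 : ∀ t, scF t ∈ Set.Icc (0 : ℝ) 1 := fun t => by
    have h : scF t = scF (max (-2) (min t 2)) := by
      unfold scF
      congr 1
      grind
    rw [h]
    exact ⟨hF0 ▸ hFm (le_max_left _ _), hF2 ▸ hFm (max_le (by norm_num) (min_le_right _ _))⟩
  have hblock : ∀ (i : Fin K) (b : H →L[ℂ] H), IsSelfAdjoint b →
      ‖cfc (piece K i) b - algebraMap ℝ (H →L[ℂ] H) (scInv ((i : ℝ) / K))‖ ≤ η := by
    intro i b hb
    have hpc : Continuous (piece K i) := hIc.comp ((continuous_const.add hFc).div_const _)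
    rw [← cfc_const (scInv ((i : ℝ) / K)) b hb, ← cfc_sub (piece K i) (fun _ => _) b
      hpc.continuousOn continuousOn_const]
    refine norm_cfc_le hη fun t _ => ?_
    have ht := hF01 t
    have hiK : ((i : ℕ) : ℝ) + 1 ≤ K := by exact_mod_cast i.isLt
    rw [Real.norm_eq_abs]
    refine hw _ _ ⟨div_nonneg (add_nonneg (Nat.cast_nonneg _) ht.1) hK'.le,
      (div_le_one hK').2 (by linarith [ht.2])⟩
      ⟨div_nonneg (Nat.cast_nonneg _) hK'.le, (div_le_one hK').2 (by linarith)⟩ ?_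
    rw [← sub_div, add_sub_cancel_left, abs_div, abs_of_nonneg ht.1, abs_of_pos hK']
    exact div_le_div_of_nonneg_right ht.2 hK'.le
  set C : Fin K → Fin K → H →L[ℂ] H := fun i j =>
    xBlock (fun i => a' (.inl (.inl i))) i j - xBlock (fun i => a (.inl (.inl i))) i j with hC
  have hn := ((hMat (H := H) K Ω hK).2.1 C C).2.2.2.2
  have he : triple a' 0 - triple a 0 = matRep C := by
    rw [hC, ← matRep_sub hMat hK]
    rfl
  refine le_of_pow_le_pow_left₀ two_ne_zero (by linarith) ?_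
  rw [he, hn, inv_mul_le_iff₀ hK']
  calc ∑ i, ∑ j, ‖C i j Ω‖ ^ 2 ≤ ∑ i : Fin K, (2 * η) ^ 2 := by
        refine Finset.sum_le_sum fun i _ => ?_
        rw [Finset.sum_eq_single i (fun j _ hj => by simp [hC, xBlock, Ne.symm hj]) (by simp)]
        refine pow_le_pow_left₀ (norm_nonneg _) ((norm_apply_le Ω hΩ _).trans ?_) 2
        simp only [hC, xBlock, if_true]
        refine (norm_sub_le_norm_sub_add_norm_sub _
          (algebraMap ℝ (H →L[ℂ] H) (scInv ((i : ℝ) / K))) _).trans ?_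
        rw [norm_sub_rev (algebraMap ℝ (H →L[ℂ] H) _) _]
        linarith [hblock i _ (ha' (.inl (.inl i))), hblock i _ (ha (.inl (.inl i)))]
    _ = K * (2 * η) ^ 2 := by simp

/-- Arithmetic of the two mean square bounds. -/
lemma mean_bound {S : Type*} [Fintype S] (d : S → ℝ) {k η L δ δ₀ : ℝ} (hk : 0 < k)
    (hcard : (Fintype.card S : ℝ) = k) (hd : ∑ s, d s ^ 2 ≤ δ₀ * k) (hη : 0 ≤ η)
    (hηδ : 16 * η ≤ δ) (hδ₀ : δ₀ = δ ^ 2 / (8 * L ^ 2 + 8)) :
    2 * (∑ s, (4 * η + L * d s) ^ 2) / k ≤ δ ^ 2 := by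
  have hsum : ∑ s, (4 * η + L * d s) ^ 2 ≤ k * (32 * η ^ 2) + 2 * L ^ 2 * (δ₀ * k) := by
    calc ∑ s, (4 * η + L * d s) ^ 2 ≤ ∑ s, (32 * η ^ 2 + 2 * L ^ 2 * d s ^ 2) :=
          Finset.sum_le_sum fun s _ => by nlinarith [sq_nonneg (4 * η - L * d s)]
      _ ≤ _ := by
          rw [Finset.sum_add_distrib]
          refine add_le_add (le_of_eq (by simp [hcard])) ?_
          rw [← Finset.mul_sum]
          exact mul_le_mul_of_nonneg_left hd (by positivity)
  rw [div_le_iff₀ hk]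
  have h8 : 8 * L ^ 2 * δ₀ ≤ δ ^ 2 := by
    rw [hδ₀, mul_div_assoc', div_le_iff₀ (by positivity)]
    nlinarith [sq_nonneg δ]
  have h16 : 256 * η ^ 2 ≤ δ ^ 2 := by nlinarith
  nlinarith [mul_le_mul_of_nonneg_left h8 hk.le, mul_le_mul_of_nonneg_left h16 hk.le]

/-- The second member moves little. -/
lemma y_close (hMat : MatGoal.{0}) (hK : 0 < K) (Ω : H) (a a' : MIdx K → H →L[ℂ] H)
    (D : Fin K × Fin K → ℝ) (hD0 : ∀ p, 0 ≤ D p)
    (h : ∀ p : YIdx K,
      ‖(cfc (piece 2 1) (a' (.inl (.inr p))) - cfc (piece 2 1) (a (.inl (.inr p)))) Ω‖ ^ 2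
        ≤ D p.1 ∧ ‖(a' (.inl (.inr p)) - a (.inl (.inr p))) Ω‖ ^ 2 ≤ D p.1) :
    ‖(triple a' 1 - triple a 1) (matVac Ω)‖ ^ 2 ≤ 2 * (∑ p, D p) / (K : ℝ) ^ 2 := by
  refine norm_scaled_block_le hMat hK Ω (gaugedBlock fun p => a' (.inl (.inr p)))
    (gaugedBlock fun p => a (.inl (.inr p))) D fun i j => ?_
  have hcoord : ∀ q : Fin K × Fin K,
      ‖((if hq : ¬ ((q.2 : ℕ) = 0 ∧ (q.1 : ℕ) ≠ 0) then a' (.inl (.inr ⟨q, hq⟩)) else 0)
        - (if hq : ¬ ((q.2 : ℕ) = 0 ∧ (q.1 : ℕ) ≠ 0) then a (.inl (.inr ⟨q, hq⟩)) else 0)) Ω‖ ^ 2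
        ≤ D q := by
    intro q
    by_cases hq : ¬ ((q.2 : ℕ) = 0 ∧ (q.1 : ℕ) ≠ 0)
    · rw [dif_pos hq, dif_pos hq]
      exact (h ⟨q, hq⟩).2
    · rw [dif_neg hq, dif_neg hq]
      simpa using hD0 q
  simp only [gaugedBlock]
  split_ifs
  · exact (h _).1.trans (le_add_of_nonneg_right (hD0 _))
  · exact (h _).1.trans (le_add_of_nonneg_left (hD0 _))
  · rw [herm_sub]
    exact (norm_herm_sq_le Ω _ i j).trans (add_le_add (hcoord _) (hcoord _))

/-- The approximant of the third member. -/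
lemma s_close (hMat : MatGoal.{0}) (hK : 0 < K) {Ω : H} (a' : MIdx K → H →L[ℂ] H)
    (t : Set (H →L[ℂ] H))
    (ht : ∀ (i j : Fin K), ∀ c ∈ vn t, matRep (entry i j c) ∈ vn {triple a' 0, triple a' 1})
    (b cp : Fin K × Fin K → H →L[ℂ] H) (hcs : ∀ p, IsSelfAdjoint (cp p))
    (hct : ∀ p, cp p ∈ vn t) (D : Fin K × Fin K → ℝ)
    (hD : ∀ p, ‖(cp p - b p) Ω‖ ^ 2 ≤ D p) :
    ∃ C ∈ vn {triple a' 0, triple a' 1}, IsSelfAdjoint C ∧
      ‖(C - ((Real.sqrt K)⁻¹ : ℂ) • matRep (herm b)) (matVac Ω)‖ ^ 2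
        ≤ 2 * (∑ p, D p) / (K : ℝ) ^ 2 := by
  refine ⟨((Real.sqrt K)⁻¹ : ℂ) • matRep (herm cp), ?_, ?_, ?_⟩
  · refine vn_smul _ (matRep_mem_vn hMat ⟨0, hK⟩ (t := t) (fun i j => ht i j 1 vn_one)
      (fun c hc => ht _ _ c (subset_vn _ hc)) fun i j => ?_)
    unfold herm
    split_ifs
    · exact hct _
    · exact vn_smul _ (vn_add (hct _) (vn_smul _ (hct _)))
    · exact vn_smul _ (vn_sub (hct _) (vn_smul _ (hct _)))
  · have h : star (matRep (herm cp)) = matRep (herm cp) := by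
      rw [((hMat (H := H) K Ω hK).2.1 (herm cp) (herm cp)).2.1]
      congr 1
      funext i j
      exact star_herm hcs i j
    have hr : star ((Real.sqrt K)⁻¹ : ℂ) = ((Real.sqrt K)⁻¹ : ℂ) := by
      rw [star_inv₀, Complex.star_def, Complex.conj_ofReal]
    have hsmul : star (((Real.sqrt K)⁻¹ : ℂ) • matRep (herm cp))
        = star ((Real.sqrt K)⁻¹ : ℂ) • star (matRep (herm cp)) := star_smul _ _
    change star _ = _
    rw [hsmul, hr, h]
  · refine norm_scaled_block_le hMat hK Ω (herm cp) (herm b) D fun i j => ?_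
    rw [herm_sub]
    exact (norm_herm_sq_le Ω _ i j).trans (add_le_add (hD _) (hD _))

end Vale.Agent.P086.StepTools
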