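import Vale.Agent.P086.Spec
import Vale.Agent.P086.Lemmas

/-!
# Tools for the step: transfer along unitaries and Laurent approximation of continuous functions
-/

noncomputable section

namespace Vale.Agent.P086.StepTools

open scoped InnerProductSpace BigOperators
open MeasureTheory

universe u v

variable {H : Type u} [NormedAddCommGroup H] [InnerProductSpace ℂ H] [CompleteSpace H]
variable {H' : Type v} [NormedAddCommGroup H'] [InnerProductSpace ℂ H'] [CompleteSpace H']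

/-- Conjugation by a unitary as a star algebra isomorphism. -/
def cj (U : H ≃ₗᵢ[ℂ] H') : (H →L[ℂ] H) ≃⋆ₐ[ℂ] (H' →L[ℂ] H') := U.conjStarAlgEquiv

lemma cj_apply (U : H ≃ₗᵢ[ℂ] H') (a : H →L[ℂ] H) : cj U a = conjU U a := rfl

lemma continuous_cj (U : H ≃ₗᵢ[ℂ] H') : Continuous (cj U) :=
  U.toContinuousLinearEquiv.conjContinuousAlgEquiv.continuous

lemma conjU_symm_conjU (U : H ≃ₗᵢ[ℂ] H') (a : H →L[ℂ] H) : conjU U.symm (conjU U a) = a := by
  ext x; simp

lemma conjU_conjU_symm (U : H ≃ₗᵢ[ℂ] H') (a : H' →L[ℂ] H') : conjU U (conjU U.symm a) = a := by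
  ext x; simp

lemma conjU_mem_vn (U : H ≃ₗᵢ[ℂ] H') {s : Set (H →L[ℂ] H)} {a : H →L[ℂ] H} (ha : a ∈ vn s) :
    conjU U a ∈ vn (conjU U '' s) := by
  intro y hy
  have h1 : conjU U.symm y ∈ Set.centralizer (s ∪ star '' s) := by
    intro m hm
    have h2 : conjU U m ∈ conjU U '' s ∪ star '' (conjU U '' s) := by
      rcases hm with hm | ⟨z, hz, rfl⟩
      · exact Or.inl ⟨m, hm, rfl⟩
      · exact Or.inr ⟨conjU U z, ⟨z, hz, rfl⟩, (conjU_star U z).symm⟩
    have h3 := congrArg (conjU U.symm) (hy (conjU U m) h2)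
    rwa [conjU_mul, conjU_mul, conjU_symm_conjU] at h3
  have h4 := congrArg (conjU U) (ha _ h1)
  rwa [conjU_mul, conjU_mul, conjU_conjU_symm] at h4

lemma conjU_image_vn (U : H ≃ₗᵢ[ℂ] H') (s : Set (H →L[ℂ] H)) :
    conjU U '' vn s = vn (conjU U '' s) := by
  refine Set.Subset.antisymm (fun _ ⟨a, ha, h⟩ => h ▸ conjU_mem_vn U ha) fun b hb => ?_
  refine ⟨conjU U.symm b, ?_, conjU_conjU_symm U b⟩
  have h := conjU_mem_vn U.symm hb
  rwa [Set.image_image, Set.image_congr fun x _ => conjU_symm_conjU U x, Set.image_id'] at h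

lemma vn_range_conjU (U : H ≃ₗᵢ[ℂ] H') {ι : Type*} (X : ι → H →L[ℂ] H) :
    vn (Set.range fun i => conjU U (X i)) = conjU U '' vn (Set.range X) := by
  rw [conjU_image_vn, ← Set.range_comp]
  rfl

lemma norm_conjU_sub (U : H ≃ₗᵢ[ℂ] H') (Ω : H) (a b : H →L[ℂ] H) :
    ‖(conjU U a - conjU U b) (U Ω)‖ = ‖(a - b) Ω‖ := by
  rw [← conjU_sub, norm_conjU_apply]

lemma isSys_conjU (U : H ≃ₗᵢ[ℂ] H') {Ω : H} {ι : Type*} [DecidableEq ι]
    {X : ι → H →L[ℂ] H} (h : IsSys Ω X) : IsSys (U Ω) fun i => conjU U (X i) where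
  unit := by rw [U.norm_map, h.unit]
  sa i := by
    change star (conjU U (X i)) = conjU U (X i)
    rw [← conjU_star, (h.sa i).star_eq]
  bound i := by
    refine ContinuousLinearMap.opNorm_le_bound _ zero_le_two fun x => ?_
    rw [conjU_apply, U.norm_map]
    refine ((X i).le_opNorm _).trans ?_
    rw [U.symm.norm_map]
    exact mul_le_mul_of_nonneg_right (h.bound i) (norm_nonneg _)
  split i l := by
    simp only [← conjU_wprod, ← conjU_mul, tr_conjU]
    exact h.split i l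
  tracial a ha b hb := by
    rw [vn_range_conjU] at ha hb
    obtain ⟨a, ha, rfl⟩ := ha
    obtain ⟨b, hb, rfl⟩ := hb
    rw [← conjU_mul, ← conjU_mul, tr_conjU, tr_conjU, h.tracial a ha b hb]
  cyclic := by
    rw [vn_range_conjU, Set.image_image]
    have hh : (fun a : H →L[ℂ] H => conjU U a (U Ω)) '' vn (Set.range X)
        = (fun x : H => U x) '' ((fun a : H →L[ℂ] H => a Ω) '' vn (Set.range X)) := by
      rw [Set.image_image]
      exact Set.image_congr fun a _ => by simp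
    rw [hh]
    exact U.surjective.denseRange.dense_image U.continuous h.cyclic

/-- Continuous calculus of a self-adjoint operator commutes with conjugation. -/
lemma conjU_cfc (U : H ≃ₗᵢ[ℂ] H') {f : ℝ → ℝ} (hf : Continuous f) {a : H →L[ℂ] H}
    (ha : IsSelfAdjoint a) : conjU U (cfc f a) = cfc f (conjU U a) :=
  StarAlgHom.map_cfc (S := ℂ) (cj U).toStarAlgHom f a hf.continuousOn (continuous_cj U) ha
    (by change star (conjU U a) = conjU U a; rw [← conjU_star, ha.star_eq])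

/-- Integer powers of a unitary. -/
def pw (x : H →L[ℂ] H) : ℤ → (H →L[ℂ] H)
  | Int.ofNat n => x ^ n
  | Int.negSucc n => star x ^ (n + 1)

/-- A Laurent polynomial in a unitary. -/
def lpoly (n : ℕ) (c : ℤ → ℂ) (x : H →L[ℂ] H) : H →L[ℂ] H :=
  ∑ k ∈ Finset.Icc (-(n : ℤ)) n, c k • pw x k

/-- The Lipschitz constant of a Laurent polynomial on unitaries. -/
def lw (n : ℕ) (c : ℤ → ℂ) : ℝ := ∑ k ∈ Finset.Icc (-(n : ℤ)) n, ‖c k‖ * (k.natAbs : ℝ)

lemma lw_nonneg (n : ℕ) (c : ℤ → ℂ) : 0 ≤ lw n c :=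
  Finset.sum_nonneg fun _ _ => mul_nonneg (norm_nonneg _) (Nat.cast_nonneg _)

lemma pw_mem {s : Set (H →L[ℂ] H)} {x : H →L[ℂ] H} (hx : x ∈ vn s) : ∀ k, pw x k ∈ vn s
  | Int.ofNat n => vn_pow hx n
  | Int.negSucc n => vn_pow (vn_star hx) (n + 1)

lemma lpoly_mem {s : Set (H →L[ℂ] H)} {x : H →L[ℂ] H} (hx : x ∈ vn s) (n : ℕ) (c : ℤ → ℂ) :
    lpoly n c x ∈ vn s :=
  vn_sum _ fun k _ => vn_smul _ (pw_mem hx k)

lemma conjU_sum (U : H ≃ₗᵢ[ℂ] H') {κ : Type*} (F : Finset κ) (f : κ → H →L[ℂ] H) :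
    conjU U (∑ k ∈ F, f k) = ∑ k ∈ F, conjU U (f k) :=
  map_sum (cj U) f F

lemma conjU_lpoly (U : H ≃ₗᵢ[ℂ] H') (n : ℕ) (c : ℤ → ℂ) (x : H →L[ℂ] H) :
    conjU U (lpoly n c x) = lpoly n c (conjU U x) := by
  simp only [lpoly, conjU_sum, conjU_smul]
  refine Finset.sum_congr rfl fun k _ => congrArg _ ?_
  cases k with
  | ofNat m => exact map_pow (cj U) x m
  | negSucc m =>
    change conjU U (star x ^ (m + 1)) = star (conjU U x) ^ (m + 1)
    rw [← conjU_star]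
    exact map_pow (cj U) (star x) (m + 1)

/-- The trace norm inequalities that the step uses, from `OpsGoal`. -/
structure Amb (Ω : H) (A : Set (H →L[ℂ] H)) : Prop where
  mulr : ∀ a ∈ vn A, ∀ b ∈ vn A, ‖(a * b) Ω‖ ≤ ‖b‖ * ‖a Ω‖
  mull : ∀ a ∈ vn A, ∀ b ∈ vn A, ‖(a * b) Ω‖ ≤ ‖a‖ * ‖b Ω‖
  star_eq : ∀ a ∈ vn A, ‖(star a) Ω‖ = ‖a Ω‖

lemma amb_of_ops (hOps : OpsGoal.{u}) {Ω : H} {A : Set (H →L[ℂ] H)}
    (hc : Dense ((fun a : H →L[ℂ] H => a Ω) '' vn A))
    (ht : ∀ a ∈ vn A, ∀ b ∈ vn A, tr Ω (a * b) = tr Ω (b * a)) : Amb Ω A := by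
  have h := (hOps Ω A hc ht).2.1
  exact ⟨fun a ha b hb => (h a ha b hb).2.1, fun a ha b hb => (h a ha b hb).1,
    fun a ha => (h a ha a ha).2.2⟩

lemma norm_le_one_of_unitary {x : H →L[ℂ] H} (hx : x ∈ unitary (H →L[ℂ] H)) : ‖x‖ ≤ 1 :=
  ContinuousLinearMap.opNorm_le_bound _ zero_le_one fun v => by
    rw [ContinuousLinearMap.norm_map_of_mem_unitary hx, one_mul]

variable {Ω : H} {A : Set (H →L[ℂ] H)} {x y : H →L[ℂ] H}

lemma pow_sub_pow_le (hA : Amb Ω A) (hx : x ∈ unitary (H →L[ℂ] H))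
    (hy : y ∈ unitary (H →L[ℂ] H)) (hxm : x ∈ vn A) (hym : y ∈ vn A) :
    ∀ n : ℕ, ‖(x ^ n - y ^ n) Ω‖ ≤ n * ‖(x - y) Ω‖ := by
  intro n
  induction n with
  | zero => simp
  | succ n ih =>
    have he : x ^ (n + 1) - y ^ (n + 1) = x * (x ^ n - y ^ n) + (x - y) * y ^ n := by
      rw [pow_succ', pow_succ', mul_sub, sub_mul]; abel
    rw [he, Nat.cast_succ, add_mul, one_mul, _root_.add_apply]
    refine (norm_add_le _ _).trans ?_
    refine add_le_add ((hA.mull _ hxm _ (vn_sub (vn_pow hxm n) (vn_pow hym n))).trans ?_)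
      ((hA.mulr _ (vn_sub hxm hym) _ (vn_pow hym n)).trans ?_)
    · exact (mul_le_of_le_one_left (norm_nonneg _) (norm_le_one_of_unitary hx)).trans ih
    · exact mul_le_of_le_one_left (norm_nonneg _) (norm_le_one_of_unitary (pow_mem hy n))

lemma pw_sub_pw_le (hA : Amb Ω A) (hx : x ∈ unitary (H →L[ℂ] H))
    (hy : y ∈ unitary (H →L[ℂ] H)) (hxm : x ∈ vn A) (hym : y ∈ vn A) :
    ∀ k : ℤ, ‖(pw x k - pw y k) Ω‖ ≤ (k.natAbs : ℝ) * ‖(x - y) Ω‖
  | Int.ofNat n => by simpa [pw] using pow_sub_pow_le hA hx hy hxm hym n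
  | Int.negSucc n => by
    have h := pow_sub_pow_le hA (Unitary.star_mem hx) (Unitary.star_mem hy)
      (vn_star hxm) (vn_star hym) (n + 1)
    rw [← star_sub, hA.star_eq _ (vn_sub hxm hym)] at h
    simpa [pw] using h

lemma lpoly_sub_le (hA : Amb Ω A) (hx : x ∈ unitary (H →L[ℂ] H))
    (hy : y ∈ unitary (H →L[ℂ] H)) (hxm : x ∈ vn A) (hym : y ∈ vn A) (n : ℕ) (c : ℤ → ℂ) :
    ‖(lpoly n c x - lpoly n c y) Ω‖ ≤ lw n c * ‖(x - y) Ω‖ := by
  simp only [lpoly, ← Finset.sum_sub_distrib, ← smul_sub, sum_apply, lw, Finset.sum_mul]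
  refine (norm_sum_le _ _).trans (Finset.sum_le_sum fun k _ => ?_)
  rw [_root_.smul_apply, norm_smul, mul_assoc]
  exact mul_le_mul_of_nonneg_left (pw_sub_pw_le hA hx hy hxm hym k) (norm_nonneg _)

/-- A continuous function is a Laurent polynomial in `scU`, up to `η` in the vector norm. -/
lemma exists_lpoly (hSemi : SemiGoal) (hCalc : CalcGoal.{u}) {f : ℝ → ℝ} (hf : Continuous f)
    {η : ℝ} (hη : 0 < η) :
    ∃ (n : ℕ) (c : ℤ → ℂ), ∀ {H : Type u} [NormedAddCommGroup H] [InnerProductSpace ℂ H]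
      [CompleteSpace H] (Ω : H) {ι : Type} [DecidableEq ι] (X : ι → H →L[ℂ] H),
      IsSC Ω X → ∀ i, ‖(cfc f (X i) - lpoly n c (scU (X i))) Ω‖ ≤ η := by
  obtain ⟨hFc, -, -, -, -, -, -, -, -, -, -, -, hden⟩ := hSemi
  have hf' : Continuous fun t : ℝ => (f t : ℂ) := Complex.continuous_ofReal.comp hf
  obtain ⟨n, c, hc⟩ := hden (fun t => (f t : ℂ)) (η ^ 2) hf' (pow_pos hη 2)
  refine ⟨n, c, fun {H} _ _ _ Ω {ι} _ X hX i => ?_⟩
  have hn : IsStarNormal (X i) := (hX.sa i).isStarNormal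
  have hph : Continuous scPhase := by
    unfold scPhase
    fun_prop
  have hne : ∀ t, scPhase t ≠ 0 := fun t => Complex.exp_ne_zero _
  have hphz : ∀ k : ℤ, Continuous fun z : ℂ => scPhase z.re ^ k := fun k =>
    (hph.comp Complex.continuous_re).zpow₀ k fun z => Or.inl (hne _)
  have hpw : ∀ k : ℤ, pw (scU (X i)) k = cfc (fun z : ℂ => scPhase z.re ^ k) (X i) := by
    intro k
    have hc1 : ContinuousOn (fun z : ℂ => scPhase z.re) (spectrum ℂ (X i)) :=
      (hph.comp Complex.continuous_re).continuousOn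
    cases k with
    | ofNat m =>
      simp only [pw, scU, ← cfc_pow _ _ (X i) hc1, Int.ofNat_eq_natCast, zpow_natCast]
    | negSucc m =>
      simp only [pw, scU, ← cfc_star]
      rw [← cfc_pow _ _ (X i) hc1.star]
      refine cfc_congr fun z _ => ?_
      simp only [zpow_negSucc, ← inv_pow]
      congr 1
      rw [scPhase, ← Complex.exp_neg, Complex.star_def, ← Complex.exp_conj]
      simp [Complex.conj_ofReal, Complex.conj_I, Complex.conj_ofNat]
  have hterm : ∀ k ∈ Finset.Icc (-(n : ℤ)) n,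
      ContinuousOn (fun z : ℂ => c k * scPhase z.re ^ k) (spectrum ℂ (X i)) := fun k _ =>
    (continuous_const.mul (hphz k)).continuousOn
  have hlp : lpoly n c (scU (X i)) = cfc
      (fun z : ℂ => ∑ k ∈ Finset.Icc (-(n : ℤ)) n, c k * scPhase z.re ^ k) (X i) := by
    rw [show (fun z : ℂ => ∑ k ∈ Finset.Icc (-(n : ℤ)) n, c k * scPhase z.re ^ k)
      = ∑ k ∈ Finset.Icc (-(n : ℤ)) n, fun z : ℂ => c k * scPhase z.re ^ k from by
        ext z; simp]
    rw [cfc_sum _ _ _ hterm, lpoly]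
    refine Finset.sum_congr rfl fun k _ => ?_
    rw [hpw, ← cfc_const_mul (c k) _ (X i) (hphz k).continuousOn]
  set h : ℝ → ℂ := fun t => (f t : ℂ) - ∑ k ∈ Finset.Icc (-(n : ℤ)) n, c k * scPhase t ^ k
    with hh
  have hhc : Continuous h := hf'.sub (continuous_finsetSum _ fun k _ =>
    continuous_const.mul (hph.zpow₀ k fun t => Or.inl (hne t)))
  have hdiff : cfc f (X i) - lpoly n c (scU (X i)) = cfc (fun z : ℂ => h z.re) (X i) := by
    rw [((hCalc Ω X hX i).2 f hf).1, hlp,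
      ← cfc_sub (fun z : ℂ => ((f z.re : ℝ) : ℂ))
        (fun z : ℂ => ∑ k ∈ Finset.Icc (-(n : ℤ)) n, c k * scPhase z.re ^ k) (X i)
        (hf'.comp Complex.continuous_re).continuousOn
        (continuous_finsetSum _ fun k _ => continuous_const.mul (hphz k)).continuousOn]
  have hcc : ContinuousOn (fun z : ℂ => h z.re) (spectrum ℂ (X i)) :=
    (hhc.comp Complex.continuous_re).continuousOn
  have hsq : star (cfc (fun z : ℂ => h z.re) (X i)) * cfc (fun z : ℂ => h z.re) (X i)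
      = cfc (fun z : ℂ => ((‖h z.re‖ ^ 2 : ℝ) : ℂ)) (X i) := by
    rw [← cfc_star, ← cfc_mul _ _ (X i) hcc.star hcc]
    refine cfc_congr fun z _ => ?_
    simp [Complex.conj_mul']
  have htr := ((hCalc Ω X hX i).1 (fun t => ((‖h t‖ ^ 2 : ℝ) : ℂ))
    (Complex.continuous_ofReal.comp (hhc.norm.pow 2))).2
  rw [← hsq, tr_star_mul] at htr
  have hint : ‖cfc (fun z : ℂ => h z.re) (X i) Ω‖ ^ 2
      = ∫ t in (-2 : ℝ)..2, scDens t * ‖h t‖ ^ 2 := by
    have h2 : ((‖cfc (fun z : ℂ => h z.re) (X i) Ω‖ ^ 2 : ℝ) : ℂ)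
        = ((∫ t in (-2 : ℝ)..2, scDens t * ‖h t‖ ^ 2 : ℝ) : ℂ) := by
      rw [htr, ← intervalIntegral.integral_ofReal]
      refine intervalIntegral.integral_congr fun t _ => ?_
      push_cast
      ring
    exact_mod_cast h2
  rw [hdiff]
  refine le_of_pow_le_pow_left₀ two_ne_zero hη.le ?_
  rw [hint]
  exact hc

end Vale.Agent.P086.StepTools
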